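import Mathlib
import Crest.Prelude.Def_LinCircuit

set_option autoImplicit false

namespace Crest.Agent.R324

open Finset

section comp
variable {U : Type} [AddCommGroup U] [Module ℂ U]

/-- straight-line extension of a set of available values by `n` gates -/
inductive Ext : Set U → ℕ → Set U → Prop
  | refl (S : Set U) : Ext S 0 S
  | add {S : Set U} {n : ℕ} {S' : Set U} {u w : U} :
      Ext S n S' → u ∈ S' → w ∈ S' → Ext S (n + 1) (insert (u + w) S')
  | smul {S : Set U} {n : ℕ} {S' : Set U} {u : U} (c : ℂ) :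
      Ext S n S' → u ∈ S' → Ext S (n + 1) (insert (c • u) S')

theorem Ext.subset {S S' : Set U} {n : ℕ} (h : Ext S n S') : S ⊆ S' := by
  induction h with
  | refl => exact subset_rfl
  | add _ _ _ ih => exact ih.trans (Set.subset_insert _ _)
  | smul _ _ _ ih => exact ih.trans (Set.subset_insert _ _)

theorem Ext.mono {S S' S₁ : Set U} {n : ℕ} (h : Ext S n S') (hS : S ⊆ S₁) :
    ∃ S₁', Ext S₁ n S₁' ∧ S' ⊆ S₁' := by
  induction h with
  | refl => exact ⟨S₁, Ext.refl _, hS⟩
  | add _ hu hw ih =>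
    obtain ⟨T, h1, h2⟩ := ih
    exact ⟨_, h1.add (h2 hu) (h2 hw), Set.insert_subset_insert h2⟩
  | smul c _ hu ih =>
    obtain ⟨T, h1, h2⟩ := ih
    exact ⟨_, h1.smul c (h2 hu), Set.insert_subset_insert h2⟩

theorem Ext.trans {S S' S'' : Set U} {n k : ℕ} (h : Ext S n S') (h' : Ext S' k S'') :
    Ext S (n + k) S'' := by
  induction h' with
  | refl => exact h
  | add _ hu hw ih => exact ih.add hu hw
  | smul c _ hu ih => exact ih.smul c hu

/-- the values `T` are computed from the values `S` with at most `s` gates -/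
def Comp (S : Set U) (s : ℝ) (T : Set U) : Prop :=
  ∃ (n : ℕ) (S' : Set U), (n : ℝ) ≤ s ∧ Ext (insert 0 S) n S' ∧ T ⊆ S'

theorem Comp.of_subset {S T : Set U} (h : T ⊆ insert 0 S) : Comp S 0 T :=
  ⟨0, _, by simp, Ext.refl _, h⟩

theorem Comp.mono {S S₁ T T₁ : Set U} {s s₁ : ℝ} (h : Comp S s T) (hS : S ⊆ insert 0 S₁)
    (hs : s ≤ s₁) (hT : T₁ ⊆ T) : Comp S₁ s₁ T₁ := by
  obtain ⟨n, S', h1, h2, h3⟩ := h
  obtain ⟨S₁', h4, h5⟩ := h2.mono (S₁ := insert 0 S₁)
    (Set.insert_subset (Set.mem_insert _ _) hS)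
  exact ⟨n, S₁', h1.trans hs, h4, hT.trans (h3.trans h5)⟩

theorem Comp.grow {S T : Set U} {s : ℝ} (h : Comp S s T) : Comp S s (S ∪ T) := by
  obtain ⟨n, S', h1, h2, h3⟩ := h
  exact ⟨n, S', h1, h2, Set.union_subset ((Set.subset_insert _ _).trans h2.subset) h3⟩

theorem Comp.trans {S T T' : Set U} {s t : ℝ} (h : Comp S s T) (h' : Comp T t T') :
    Comp S (s + t) T' := by
  obtain ⟨n, S', h1, h2, h3⟩ := h
  obtain ⟨k, S'', g1, g2, g3⟩ := h'
  obtain ⟨S₁, g4, g5⟩ := g2.mono (S₁ := S')
    (Set.insert_subset (h2.subset (Set.mem_insert _ _)) h3)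
  exact ⟨n + k, S₁, by push_cast; linarith, h2.trans g4, g3.trans g5⟩

theorem Comp.union {S T T' : Set U} {s t : ℝ} (h : Comp S s T) (h' : Comp S t T') :
    Comp S (s + t) (T ∪ T') :=
  (h.grow.trans (h'.mono (S₁ := S ∪ T) (Set.subset_union_left.trans (Set.subset_insert _ _))
    le_rfl subset_rfl).grow).mono (Set.subset_insert _ _) le_rfl
    (Set.union_subset_union_left _ Set.subset_union_right)

theorem Comp.biUnion {ι : Type*} {S : Set U} {T : ι → Set U} {c : ℝ} (s : Finset ι)
    (h : ∀ i ∈ s, Comp S c (T i)) : Comp S (s.card * c) (⋃ i ∈ s, T i) := by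
  classical
  induction s using Finset.induction_on with
  | empty => simpa using Comp.of_subset (Set.empty_subset _)
  | insert a s ha ih =>
    rw [Finset.card_insert_of_notMem ha, Finset.set_biUnion_insert]
    refine ((h a (Finset.mem_insert_self _ _)).union
      (ih fun i hi => h i (Finset.mem_insert_of_mem hi))).mono (Set.subset_insert _ _)
      (le_of_eq ?_) subset_rfl
    push_cast; ring

theorem Comp.iUnion {ι : Type*} [Fintype ι] {S : Set U} {T : ι → Set U} {c : ℝ}
    (h : ∀ i, Comp S c (T i)) : Comp S (Fintype.card ι * c) (⋃ i, T i) := by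
  simpa using Comp.biUnion (S := S) (T := T) (c := c) Finset.univ (fun i _ => h i)

theorem Comp.range {ι : Type*} [Fintype ι] {S : Set U} {p : ι → U} {c : ℝ}
    (h : ∀ i, Comp S c {p i}) : Comp S (Fintype.card ι * c) (Set.range p) := by
  rw [← Set.iUnion_singleton_eq_range]; exact Comp.iUnion h

theorem Comp.smul {S : Set U} {u : U} (c : ℂ) (hu : u ∈ insert 0 S) : Comp S 1 {c • u} :=
  ⟨1, _, by simp, (Ext.refl _).smul c hu, by simp⟩

theorem Comp.add {S : Set U} {u w : U} (hu : u ∈ S) (hw : w ∈ S) : Comp S 1 {u + w} :=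
  ⟨1, _, by simp, (Ext.refl _).add (Set.mem_insert_of_mem _ hu) (Set.mem_insert_of_mem _ hw),
    by simp⟩

theorem Comp.sum {κ : Type*} {S : Set U} (s : Finset κ) (c : κ → ℂ) (p : κ → U)
    (h : ∀ j ∈ s, c j ≠ 0 → p j ∈ S) : Comp S (2 * s.card) {∑ j ∈ s, c j • p j} := by
  classical
  induction s using Finset.induction_on with
  | empty => simpa using Comp.of_subset (by simp)
  | insert a s ha ih =>
    rw [Finset.card_insert_of_notMem ha, Finset.sum_insert ha]
    have h1 : Comp S 1 {c a • p a} := by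
      by_cases hc : c a = 0
      · rw [hc, zero_smul]
        exact (Comp.of_subset (by simp)).mono (Set.subset_insert _ _) zero_le_one subset_rfl
      · exact Comp.smul _ (Set.mem_insert_of_mem _ (h a (Finset.mem_insert_self _ _) hc))
    refine ((h1.union (ih fun j hj => h j (Finset.mem_insert_of_mem hj))).trans
      (Comp.add (by simp) (by simp))).mono (Set.subset_insert _ _) (le_of_eq ?_) subset_rfl
    push_cast; ring

/-- a matrix applied to a family of vectors -/
def act {ι κ : Type*} [Fintype κ] (A : Matrix ι κ ℂ) (x : κ → U) : ι → U :=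
  fun i => ∑ j, A i j • x j

theorem act_mul {ι κ μ : Type*} [Fintype κ] [Fintype μ] (A : Matrix ι κ ℂ) (B : Matrix κ μ ℂ)
    (x : μ → U) : act (A * B) x = act A (act B x) := by
  funext i
  simp only [act, Matrix.mul_apply, Finset.sum_smul, Finset.smul_sum, mul_smul]
  exact Finset.sum_comm

theorem act_one {ι : Type*} [Fintype ι] [DecidableEq ι] (x : ι → U) :
    act (1 : Matrix ι ι ℂ) x = x := by
  funext i
  simp [act, Matrix.one_apply]

/-- `act` as a linear map -/
def actL {ι κ : Type*} [Fintype κ] (A : Matrix ι κ ℂ) : (κ → U) →ₗ[ℂ] (ι → U) where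
  toFun := act A
  map_add' x y := by funext i; simp [act, Finset.sum_add_distrib]
  map_smul' c x := by
    funext i
    simp only [act, Pi.smul_apply, RingHom.id_apply, Finset.smul_sum]
    exact Finset.sum_congr rfl fun j _ => smul_comm _ _ _

end comp

/-- the matrix `A` has linear circuits of size at most `s` -/
def MC {ι κ : Type*} [Fintype κ] (A : Matrix ι κ ℂ) (s : ℝ) : Prop :=
  ∀ (U : Type) [AddCommGroup U] [Module ℂ U] (x : κ → U),
    Comp (Set.range x) s (Set.range (act A x))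

section mc
variable {ι κ μ : Type*}

theorem MC.mono [Fintype κ] {A : Matrix ι κ ℂ} {s t : ℝ} (h : MC A s) (hst : s ≤ t) : MC A t :=
  fun U _ _ x => (h U x).mono (Set.subset_insert _ _) hst subset_rfl

theorem MC.mul [Fintype κ] [Fintype μ] {A : Matrix ι κ ℂ} {B : Matrix κ μ ℂ} {s t : ℝ}
    (hA : MC A s) (hB : MC B t) : MC (A * B) (s + t) := by
  intro U _ _ x
  rw [act_mul, add_comm]
  exact (hB U x).trans (hA U _)

theorem MC.submatrix {ι' κ' : Type*} [Fintype κ] [Fintype κ'] {A : Matrix ι κ ℂ} {s : ℝ}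
    (h : MC A s) (f : ι' → ι) (g : κ' → κ) (hg : Function.Injective g) :
    MC (A.submatrix f g) s := by
  intro U _ _ x
  refine (h U (Function.extend g x 0)).mono ?_ le_rfl ?_
  · rintro _ ⟨j, rfl⟩
    by_cases hj : ∃ a, g a = j
    · obtain ⟨a, rfl⟩ := hj
      rw [hg.extend_apply]
      exact Set.mem_insert_of_mem _ ⟨a, rfl⟩
    · rw [Function.extend_apply' _ _ _ hj]
      exact Set.mem_insert _ _
  · rintro _ ⟨i, rfl⟩
    refine ⟨f i, ?_⟩
    simp only [act, Matrix.submatrix_apply]
    refine (Fintype.sum_of_injective g hg _ _ ?_ ?_).symm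
    · intro j hj
      rw [Function.extend_apply' _ _ _ hj]
      simp
    · intro a
      rw [hg.extend_apply]

theorem MC.of_eq {ι' κ' : Type*} [Fintype κ] [Fintype κ'] {A : Matrix ι κ ℂ} {s : ℝ}
    (h : MC A s) (f : ι' → ι) (g : κ' → κ) (hg : Function.Injective g) {B : Matrix ι' κ' ℂ}
    (hB : ∀ i j, B i j = A (f i) (g j)) : MC B s := by
  have : B = A.submatrix f g := by ext i j; exact hB i j
  rw [this]; exact h.submatrix f g hg

theorem MC.one [Fintype ι] [DecidableEq ι] : MC (1 : Matrix ι ι ℂ) 0 := by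
  intro U _ _ x
  rw [act_one]
  exact Comp.of_subset (Set.subset_insert _ _)

theorem MC.dense [Fintype ι] [Fintype κ] (A : Matrix ι κ ℂ) :
    MC A (Fintype.card ι * (2 * Fintype.card κ)) := fun _ _ _ x =>
  Comp.range fun i => Comp.sum Finset.univ (A i) x fun j _ _ => ⟨j, rfl⟩

theorem MC.bd {B : Type*} [Fintype B] [DecidableEq B] [Fintype κ] {A : B → Matrix ι κ ℂ} {s : ℝ}
    (h : ∀ b, MC (A b) s) : MC (Matrix.blockDiagonal A) (Fintype.card B * s) := by
  intro U _ _ x
  refine (Comp.iUnion (T := fun b => Set.range (act (A b) fun j => x (j, b))) fun b =>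
    (h b U _).mono ?_ le_rfl subset_rfl).mono (Set.subset_insert _ _) le_rfl ?_
  · rintro _ ⟨j, rfl⟩
    exact Set.mem_insert_of_mem _ ⟨_, rfl⟩
  · rintro _ ⟨⟨i, b⟩, rfl⟩
    refine Set.mem_iUnion.mpr ⟨b, i, ?_⟩
    simp [act, Fintype.sum_prod_type, Matrix.blockDiagonal_apply]

end mc

open Crest.FourierCircuit

theorem values_snoc {n : ℕ} (gates : List LGate) (g : LGate) (out out' : Fin n → ℕ)
    (x : Fin n → ℂ) : (LinCircuit.mk (gates ++ [g]) out).values x =
      (LinCircuit.mk gates out').values x ++ [g.value ((LinCircuit.mk gates out').values x)] := by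
  simp [LinCircuit.values, List.foldl_append]

theorem values_length {n : ℕ} (gates : List LGate) (out : Fin n → ℕ) (x : Fin n → ℂ) :
    ((LinCircuit.mk gates out).values x).length = n + 1 + gates.length := by
  induction gates using List.reverseRecOn with
  | nil => simp [LinCircuit.values]
  | append_singleton l g ih => rw [values_snoc l g out out]; simp [ih]; ring

theorem ext_circuit {n k : ℕ} {S S' : Set ((Fin n → ℂ) →ₗ[ℂ] ℂ)} (h : Ext S k S')
    (hS : S ⊆ insert 0 (Set.range fun j => LinearMap.proj j)) :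
    ∃ gates : List LGate, gates.length = k ∧ ∀ u ∈ S', ∃ p < n + 1 + k, ∀ x,
      ((LinCircuit.mk gates (fun _ => 0)).values x).getD p 0 = u x := by
  have key : ∀ (gates : List LGate) (g : LGate) (k : ℕ) (S' : Set ((Fin n → ℂ) →ₗ[ℂ] ℂ))
      (v : (Fin n → ℂ) →ₗ[ℂ] ℂ), gates.length = k →
      (∀ u ∈ S', ∃ p < n + 1 + k, ∀ x,
        ((LinCircuit.mk gates (fun _ => 0)).values x).getD p 0 = u x) →
      (∀ x, g.value ((LinCircuit.mk gates (fun _ => 0)).values x) = v x) →
      ∃ gates : List LGate, gates.length = k + 1 ∧ ∀ u ∈ insert v S', ∃ p < n + 1 + (k + 1), ∀ x,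
        ((LinCircuit.mk gates (fun _ => 0)).values x).getD p 0 = u x := by
    intro gates g k S' v hk h1 h2
    refine ⟨gates ++ [g], by simp [hk], ?_⟩
    rintro u (rfl | hu)
    · refine ⟨n + 1 + k, by omega, fun x => ?_⟩
      rw [values_snoc _ _ _ (fun _ => 0), List.getD_append_right _ _ _ _
        (by rw [values_length, hk]), values_length, hk, Nat.sub_self]
      simpa using h2 x
    · obtain ⟨p, hp, hx⟩ := h1 u hu
      refine ⟨p, by omega, fun x => ?_⟩
      rw [values_snoc _ _ _ (fun _ => 0), List.getD_append _ _ _ _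
        (by rw [values_length, hk]; exact hp), hx]
  induction h with
  | refl =>
    refine ⟨[], rfl, fun u hu => ?_⟩
    rcases hS hu with rfl | ⟨j, rfl⟩
    · refine ⟨n, by omega, fun x => ?_⟩
      simp [LinCircuit.values]
    · refine ⟨j, by omega, fun x => ?_⟩
      simp [LinCircuit.values]
  | add _ hu hw ih =>
    obtain ⟨gates, hk, h1⟩ := ih
    obtain ⟨p, _, hp⟩ := h1 _ hu
    obtain ⟨q, _, hq⟩ := h1 _ hw
    exact key gates (LGate.add p q) _ _ _ hk h1 fun x => by
      simp only [LGate.value, hp, hq, LinearMap.add_apply]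
  | smul c _ hu ih =>
    obtain ⟨gates, hk, h1⟩ := ih
    obtain ⟨p, _, hp⟩ := h1 _ hu
    exact key gates (LGate.smul c p) _ _ _ hk h1 fun x => by
      simp only [LGate.value, hp, LinearMap.smul_apply, smul_eq_mul]

theorem MC.circuit {n : ℕ} {A : Matrix (Fin n) (Fin n) ℂ} {s : ℝ} (h : MC A s) :
    ∃ P : LinCircuit n, P.Computes A ∧ (P.size : ℝ) ≤ s := by
  obtain ⟨k, S', h1, h2, h3⟩ := h ((Fin n → ℂ) →ₗ[ℂ] ℂ) (fun j => LinearMap.proj j)
  obtain ⟨gates, hk, h4⟩ := ext_circuit h2 subset_rfl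
  choose p _ hp using fun i => h4 _ (h3 ⟨i, rfl⟩)
  refine ⟨⟨gates, p⟩, fun x i => ?_, by simpa [LinCircuit.size, hk] using h1⟩
  have := hp i x
  simpa [act, Matrix.mulVec, dotProduct, LinCircuit.values] using this

end Crest.Agent.R324
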