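import Crest.Agent.R324.Layers

set_option autoImplicit false

namespace Crest.Agent.R324

open Finset Matrix Complex
open scoped Real Kronecker

/-- a Fourier transform on a finite abelian group -/
structure IsFT {G : Type} [AddCommGroup G] [Fintype G] [DecidableEq G] (Φ : Matrix G G ℂ) :
    Prop where
  add : ∀ ξ y y', Φ ξ (y + y') = Φ ξ y * Φ ξ y'
  inv : ∃ M : Matrix G G ℂ, IsMon M ∧ M * Φ * Φ = 1

theorem IsFT.tp {J : Type} [Fintype J] [DecidableEq J] {G : J → Type} [∀ j, AddCommGroup (G j)]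
    [∀ j, Fintype (G j)] [∀ j, DecidableEq (G j)] {Φ : ∀ j, Matrix (G j) (G j) ℂ}
    (h : ∀ j, IsFT (Φ j)) : IsFT (tp Φ) where
  add ξ y y' := by simp only [tp_apply, Pi.add_apply, (h _).add, prod_mul_distrib]
  inv := by
    choose M hM hM' using fun j => (h j).inv
    refine ⟨R324.tp M, IsMon.tp hM, ?_⟩
    rw [← tp_mul, ← tp_mul]
    simp only [hM']
    exact tp_one

theorem IsFT.kron {G G' : Type} [AddCommGroup G] [Fintype G] [DecidableEq G] [AddCommGroup G']
    [Fintype G'] [DecidableEq G'] {Φ : Matrix G G ℂ} {Φ' : Matrix G' G' ℂ} (h : IsFT Φ)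
    (h' : IsFT Φ') : IsFT (Φ ⊗ₖ Φ') where
  add ξ y y' := by
    simp only [kroneckerMap_apply, Prod.fst_add, Prod.snd_add, h.add, h'.add]; ring
  inv := by
    obtain ⟨M, ⟨σ, hσ⟩, hM⟩ := h.inv
    obtain ⟨M', ⟨σ', hσ'⟩, hM'⟩ := h'.inv
    refine ⟨M ⊗ₖ M', ⟨Prod.map σ σ', fun i j hj => ?_⟩, ?_⟩
    · rw [kroneckerMap_apply]
      by_cases h1 : j.1 = σ i.1
      · rw [hσ' _ _ fun h2 => hj (Prod.ext h1 h2), mul_zero]
      · rw [hσ _ _ h1, zero_mul]
    · rw [← mul_kronecker_mul, ← mul_kronecker_mul, hM, hM', one_kronecker_one]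

theorem circ_eq {G : Type} [AddCommGroup G] [Fintype G] [DecidableEq G] {Φ M : Matrix G G ℂ}
    (h : IsFT Φ) (hM : M * Φ * Φ = 1) (γ : G → ℂ) :
    ∃ l : G → ℂ, ∀ x y, (M * Φ * diagonal l * Φ) x y = γ (x - y) := by
  refine ⟨fun ξ => ∑ g, Φ ξ g * γ g, fun x y => ?_⟩
  have key : diagonal (fun ξ => ∑ g, Φ ξ g * γ g) * Φ = Φ * Matrix.of fun x y => γ (x - y) := by
    ext ξ y
    rw [diagonal_mul, Matrix.mul_apply, sum_mul]
    refine Eq.trans ?_ (Equiv.sum_comp (Equiv.addRight y) _)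
    refine sum_congr rfl fun g _ => ?_
    simp only [Equiv.coe_addRight, Matrix.of_apply, add_sub_cancel_right, h.add]
    ring
  rw [Matrix.mul_assoc, key, ← Matrix.mul_assoc, hM, Matrix.one_mul, Matrix.of_apply]

theorem bluestein {G : Type} [AddCommGroup G] [Fintype G] [DecidableEq G] {Φ M : Matrix G G ℂ}
    (h : IsFT Φ) (hM : M * Φ * Φ = 1) {n : ℕ} (π' : ℤ →+ G)
    (hπ : ∀ a : ℤ, π' a = 0 → |a| < 2 * n → a = 0) :
    ∃ (d : ℕ → ℂ) (l : G → ℂ), ∀ j k : ℕ, j < n → k < n →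
      exp (2 * π * I / n) ^ (j * k) = d j * (M * Φ * diagonal l * Φ) (π' j) (π' k) * d k := by
  classical
  obtain ⟨l, hl⟩ := circ_eq h hM fun g =>
    if h : ∃ a : ℤ, |a| < n ∧ π' a = g then exp (-(π * I * (h.choose : ℂ) ^ 2 / n)) else 0
  refine ⟨fun j => exp (π * I * (j : ℂ) ^ 2 / n), l, fun j k hj hk => ?_⟩
  have h1 : ∃ a : ℤ, |a| < n ∧ π' a = π' j - π' k :=
    ⟨j - k, by rw [abs_lt]; constructor <;> omega, map_sub _ _ _⟩
  have h2 : h1.choose = j - k := by
    obtain ⟨h3, h4⟩ := h1.choose_spec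
    rw [← sub_eq_zero]
    refine hπ _ (by rw [map_sub, h4, map_sub, sub_self]) ?_
    rw [abs_lt] at h3 ⊢
    constructor <;> omega
  rw [hl, dif_pos h1, h2, ← exp_nat_mul, ← exp_add, ← exp_add]
  congr 1
  push_cast
  ring

/-- the Fourier matrix on `ZMod N` -/
noncomputable def F (N : ℕ) [NeZero N] : Matrix (ZMod N) (ZMod N) ℂ :=
  Matrix.of fun x y => ZMod.stdAddChar (x * y)

theorem F_nat (N : ℕ) [NeZero N] (p q : ℕ) :
    F N (p : ZMod N) (q : ZMod N) = exp (2 * π * I / N) ^ (p * q) := by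
  have := ZMod.stdAddChar_coe (N := N) ((p * q : ℕ) : ℤ)
  rw [← exp_nat_mul]
  simp only [F, Matrix.of_apply]
  push_cast at this ⊢
  rw [this]
  congr 1
  ring

theorem F_val (N : ℕ) [NeZero N] (x y : ZMod N) :
    F N x y = exp (2 * π * I / N) ^ (x.val * y.val) := by
  rw [← F_nat, ZMod.natCast_zmod_val, ZMod.natCast_zmod_val]

theorem isMon_Em_t {ι κ : Type} [DecidableEq ι] (a : κ → ι) : IsMon (Em a)ᵀ :=
  ⟨a, fun _ _ h => if_neg h⟩

theorem F_inv (N : ℕ) [NeZero N] :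
    ((N : ℂ)⁻¹ • (Em (Neg.neg : ZMod N → ZMod N))ᵀ) * F N * F N = 1 := by
  rw [Matrix.smul_mul, Em_t_mul, Matrix.smul_mul]
  ext x y
  have := AddChar.sum_mulShift (y - x) (ZMod.isPrimitive_stdAddChar N)
  simp only [Matrix.smul_apply, Matrix.mul_apply, submatrix_apply, F,
    Matrix.of_apply, id, ← AddChar.map_add_eq_mul]
  have e : ∀ ξ : ZMod N, -x * ξ + ξ * y = ξ * (y - x) := fun ξ => by ring
  simp only [e, this, sub_eq_zero, ZMod.card, Matrix.one_apply, eq_comm (a := y)]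
  have : (N : ℂ) ≠ 0 := Nat.cast_ne_zero.mpr (NeZero.ne N)
  split_ifs <;> simp [this]

theorem isFT_F (N : ℕ) [NeZero N] : IsFT (F N) where
  add ξ y y' := by simp only [F, Matrix.of_apply, mul_add, AddChar.map_add_eq_mul]
  inv := ⟨_, (isMon_Em_t _).smul _, F_inv N⟩

theorem isShear_unit {ι : Type} [DecidableEq ι] {a b : ι} (h : a ≠ b) (t : ℂ) :
    IsShear (1 + Em (fun _ : Unit => b) * diagonal (fun _ : Unit => t) * (Em (fun _ : Unit => a))ᵀ) :=
  ⟨Unit, inferInstance, inferInstance, fun _ => a, fun _ => b, fun _ => t, fun _ _ _ => rfl,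
    fun _ _ _ => rfl, fun _ _ => h, rfl⟩

theorem lay_Hm : Lay 2 Hm := by
  have h1 := isShear_unit (ι := ZMod 2) one_ne_zero 1
  have h2 := isShear_unit (ι := ZMod 2) zero_ne_one 1
  refine (h2.lay.mul (h1.lay.mon_mul
    (isMon_diagonal fun x => if x = 0 then 1 else -2))).congr ?_
  ext x y
  rcases zmod2_cases x with rfl | rfl <;> rcases zmod2_cases y with rfl | rfl <;>
    simp [Matrix.mul_apply, sum_zmod2, Hm, sgn, Em, diagonal_apply, Matrix.one_apply]
  norm_num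

theorem lay_F_double (N : ℕ) [NeZero N] {L : ℕ} (h : Lay L (F N)) : Lay (L + 2) (F (2 * N)) := by
  have hN : 0 < N := Nat.pos_of_ne_zero (NeZero.ne N)
  have hv : ∀ b : ZMod 2, b.val < 2 := fun b => ZMod.val_lt b
  have hc : Fintype.card (ZMod N × ZMod 2) = Fintype.card (ZMod (2 * N)) := by
    simp [mul_comm]
  let ei : ZMod N × ZMod 2 → ZMod (2 * N) := fun p => ((2 * p.1.val + p.2.val : ℕ) : ZMod (2 * N))
  let eo : ZMod N × ZMod 2 → ZMod (2 * N) := fun p => ((p.1.val + N * p.2.val : ℕ) : ZMod (2 * N))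
  have hi : Function.Bijective ei := by
    refine (Fintype.bijective_iff_injective_and_card _).mpr ⟨?_, hc⟩
    rintro ⟨y, b⟩ ⟨y', b'⟩ h
    have h1 := ZMod.val_lt y
    have h2 := ZMod.val_lt y'
    have h3 := hv b
    have h4 := hv b'
    simp only [ei, ZMod.natCast_eq_natCast_iff'] at h
    rw [Nat.mod_eq_of_lt (by omega), Nat.mod_eq_of_lt (by omega)] at h
    exact Prod.ext (ZMod.val_injective _ (by simp only; omega))
      (ZMod.val_injective _ (by simp only; omega))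
  have ho : Function.Bijective eo := by
    refine (Fintype.bijective_iff_injective_and_card _).mpr ⟨?_, hc⟩
    rintro ⟨y, b⟩ ⟨y', b'⟩ h
    have h1 := ZMod.val_lt y
    have h2 := ZMod.val_lt y'
    simp only [eo, ZMod.natCast_eq_natCast_iff'] at h
    rcases zmod2_cases b with rfl | rfl <;> rcases zmod2_cases b' with rfl | rfl <;>
      simp only [ZMod.val_zero, ZMod.val_one] at h <;>
      rw [Nat.mod_eq_of_lt (by omega), Nat.mod_eq_of_lt (by omega)] at h
    · exact Prod.ext (ZMod.val_injective _ (by simp only; omega)) rfl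
    · omega
    · omega
    · exact Prod.ext (ZMod.val_injective _ (by simp only; omega)) rfl
  have hB : Lay 2 ((bd1 (ZMod N) Hm).submatrix Prod.swap Prod.swap) :=
    (lay_Hm.bd1 (ZMod N)).of_equiv (Equiv.prodComm _ _) fun _ _ => rfl
  have hP := hB.mul ((h.bd1 (ZMod 2)).mon_mul (isMon_diagonal fun p : ZMod N × ZMod 2 =>
    exp (2 * π * I / (2 * N : ℕ)) ^ (p.1.val * p.2.val)))
  have hQ := hP.mul (Lay.mon (isMon_Em_t
    ((Equiv.ofBijective eo ho).trans (Equiv.ofBijective ei hi).symm).symm))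
  refine (hQ.of_equiv (Equiv.ofBijective eo ho) ?_).mono (by omega)
  rintro ⟨x, a⟩ j
  obtain ⟨⟨y, b⟩, hj⟩ := hi.2 (eo j)
  have hj' : ∀ k, j = ((Equiv.ofBijective eo ho).trans (Equiv.ofBijective ei hi).symm).symm k ↔
      k = (y, b) := by
    intro k
    rw [Equiv.eq_symm_apply, Equiv.trans_apply, Equiv.symm_apply_eq, Equiv.ofBijective_apply,
      Equiv.ofBijective_apply, ← hj, hi.1.eq_iff, eq_comm]
  rw [Matrix.mul_apply]
  simp only [transpose_apply, Em, Matrix.of_apply, hj', mul_ite, mul_one, mul_zero, sum_ite_eq',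
    mem_univ, if_true, Equiv.ofBijective_apply, ← hj]
  rw [Matrix.mul_apply]
  simp only [Fintype.sum_prod_type, submatrix_apply, diagonal_mul, bd1_apply, Prod.swap,
    mul_ite, mul_zero, sum_ite_eq', mem_univ, if_true, ite_mul, zero_mul, sum_ite_eq]
  simp only [ei, eo]
  rw [F_nat, F_val]
  simp only [Hm, Matrix.of_apply]
  obtain ⟨ω, hω⟩ : ∃ ω, ω = exp (2 * π * I / (2 * N : ℕ)) := ⟨_, rfl⟩
  have hN' : (N : ℂ) ≠ 0 := Nat.cast_ne_zero.mpr (NeZero.ne N)
  have h2 : exp (2 * π * I / N) = ω ^ 2 := by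
    rw [hω, ← exp_nat_mul]; congr 1; push_cast; field_simp
  have h3 : ω ^ N = -1 := by
    rw [hω, ← exp_nat_mul, ← exp_pi_mul_I]; congr 1; push_cast; field_simp
  rw [← hω, h2]
  have h4 : (x.val + N * a.val) * (2 * y.val + b.val) =
      N * (2 * (a.val * y.val)) + N * (a.val * b.val) + (x.val * b.val + 2 * (x.val * y.val)) := by
    ring
  rw [h4, pow_add, pow_add, pow_add, pow_mul, pow_mul ω N, pow_mul ω 2, h3, pow_mul, neg_one_sq,
    one_pow, one_mul]
  congr 1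
  rcases zmod2_cases a with rfl | rfl <;> rcases zmod2_cases b with rfl | rfl <;>
    simp [sgn, ZMod.val_one]

theorem lay_F_pow (t : ℕ) : ∀ (N : ℕ) [NeZero N], N = 2 ^ t → Lay (2 * t) (F N) := by
  induction t with
  | zero =>
    rintro N _ rfl
    exact Lay.mon ⟨id, fun i j h => absurd (Subsingleton.elim (α := ZMod 1) _ _) h⟩
  | succ t ih =>
    intro N _ hN
    rw [pow_succ'] at hN
    subst hN
    exact lay_F_double _ (ih _ rfl)

end Crest.Agent.R324
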