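import Mathlib

set_option autoImplicit false

namespace Crest.Agent.R324

open Finset

/-- the lift `{0,1} → ℤ/4` -/
def lf (x : ZMod 2) : ZMod 4 := if x = 0 then 0 else 1

theorem lf_zero : lf 0 = 0 := by decide
theorem two_lf_add (x y : ZMod 2) : 2 * lf (x + y) = 2 * lf x + 2 * lf y := by
  revert x y; decide
theorem neg_lf (x : ZMod 2) : - lf x = lf x + 2 * lf x := by revert x; decide
theorem four_eq (x : ZMod 4) : 2 * (2 * x) = 0 := by revert x; decide
theorem lf_one_add (x : ZMod 2) : lf (1 + x) = 1 - lf x := by revert x; decide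

theorem two_lf_sum {ι : Type*} (s : Finset ι) (f : ι → ZMod 2) :
    2 * lf (∑ i ∈ s, f i) = 2 * ∑ i ∈ s, lf (f i) := by
  classical
  induction s using Finset.induction_on with
  | empty => simp [lf_zero]
  | insert a s ha ih => rw [sum_insert ha, sum_insert ha, two_lf_add, ih, mul_add]

theorem sum_lf_shift {ι : Type*} (Q : Finset ι) (hQ : Q.card = 4) (η : ι → ZMod 2) :
    ∑ i ∈ Q, lf (η i) = ∑ i ∈ Q, lf (∑ j ∈ Q, η j + η i) + 2 * lf (∑ j ∈ Q, η j) := by
  have h2 := two_lf_sum Q η
  have h : ∀ x : ZMod 2, x = 0 ∨ x = 1 := by decide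
  rcases h (∑ j ∈ Q, η j) with h0 | h1
  · simp [h0, lf_zero]
  · rw [h2]
    simp only [h1, lf_one_add, sum_sub_distrib, sum_const, hQ]
    have : (4 • (1 : ZMod 4)) = 0 := by decide
    rw [this]; ring

/-- `q` is a sum of at most `r` squares of linear forms and twice a linear form -/
inductive D {Ξ : Type} [AddCommGroup Ξ] : ℕ → (Ξ → ZMod 4) → Prop
  | zero : D 0 0
  | step {r : ℕ} {q : Ξ → ZMod 4} (l : Ξ →+ ZMod 2) : D r q → D (r + 1) ((fun ξ => lf (l ξ)) + q)
  | tr {r : ℕ} {q : Ξ → ZMod 4} (l : Ξ →+ ZMod 2) : D r q → D r ((fun ξ => 2 * lf (l ξ)) + q)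

section
variable {Ξ Ξ' : Type} [AddCommGroup Ξ] [AddCommGroup Ξ']

theorem D.congr {r : ℕ} {q q' : Ξ → ZMod 4} (h : D r q) (e : ∀ ξ, q' ξ = q ξ) : D r q' := by
  rw [funext e]; exact h

theorem D.add {r r' : ℕ} {q q' : Ξ → ZMod 4} (h : D r q) (h' : D r' q') : D (r + r') (q + q') := by
  induction h' with
  | zero => simpa using h
  | step l _ ih => exact (ih.step l).congr fun ξ => by simp only [Pi.add_apply]; ring
  | tr l _ ih => exact (ih.tr l).congr fun ξ => by simp only [Pi.add_apply]; ring

theorem D.succ {r : ℕ} {q : Ξ → ZMod 4} (h : D r q) : D (r + 1) q :=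
  (h.step 0).congr fun ξ => by simp [lf_zero]

theorem D.mono {r r' : ℕ} {q : Ξ → ZMod 4} (h : D r q) (hr : r ≤ r') : D r' q := by
  induction hr with
  | refl => exact h
  | step _ ih => exact ih.succ

theorem D.one (l : Ξ →+ ZMod 2) : D 1 (fun ξ => lf (l ξ)) :=
  (D.zero.step l).congr fun ξ => by simp

theorem D.two (l : Ξ →+ ZMod 2) : D 0 (fun ξ => 2 * lf (l ξ)) :=
  (D.zero.tr l).congr fun ξ => by simp

theorem D.neg {r : ℕ} {q : Ξ → ZMod 4} (h : D r q) : D r (-q) := by
  induction h with
  | zero => simpa using D.zero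
  | step l _ ih =>
    exact ((ih.tr l).step l).congr fun ξ => by
      simp only [Pi.add_apply, Pi.neg_apply, neg_add, neg_lf]; ring
  | tr l _ ih =>
    exact (ih.tr l).congr fun ξ => by
      simp only [Pi.add_apply, Pi.neg_apply]
      linear_combination (-1 : ZMod 4) * four_eq (lf (l ξ))

theorem D.double {r : ℕ} {q : Ξ → ZMod 4} (h : D r q) : D 0 (fun ξ => 2 * q ξ) := by
  induction h with
  | zero => exact D.zero.congr fun ξ => by simp
  | step l _ ih => exact (ih.tr l).congr fun ξ => by simp only [Pi.add_apply]; ring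
  | tr l _ ih =>
    exact ih.congr fun ξ => by
      simp only [Pi.add_apply]
      linear_combination four_eq (lf (l ξ))

theorem D.comp {r : ℕ} {q : Ξ → ZMod 4} (h : D r q) (f : Ξ' →+ Ξ) : D r (fun ξ => q (f ξ)) := by
  induction h with
  | zero => exact D.zero
  | step l _ ih => exact ih.step (l.comp f)
  | tr l _ ih => exact ih.tr (l.comp f)

theorem D.sum {ι : Type*} {r : ℕ} (s : Finset ι) {q : ι → Ξ → ZMod 4} (h : ∀ i ∈ s, D r (q i)) :
    D (s.card * r) (fun ξ => ∑ i ∈ s, q i ξ) := by
  classical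
  induction s using Finset.induction_on with
  | empty => rw [card_empty, zero_mul]; exact D.zero.congr fun _ => by simp
  | insert a s ha ih =>
    rw [card_insert_of_notMem ha, add_mul, one_mul, add_comm]
    exact ((h a (mem_insert_self _ _)).add (ih fun i hi => h i (mem_insert_of_mem hi))).congr
      fun ξ => by rw [sum_insert ha]; rfl

end

section triples
variable {I : Type} [Fintype I] [DecidableEq I]

/-- the sum of the coordinates in `a` -/
def sm {G : Type} [AddCommGroup G] (a : Finset I) : (I → G) →+ G where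
  toFun η := ∑ i ∈ a, η i
  map_zero' := by simp
  map_add' x y := by simp [sum_add_distrib]

omit [Fintype I] [DecidableEq I] in
theorem sm_apply {G : Type} [AddCommGroup G] (a : Finset I) (η : I → G) :
    sm a η = ∑ i ∈ a, η i := rfl

/-- Hamming weight modulo four -/
def wt (η : I → ZMod 2) : ZMod 4 := ∑ i, lf (η i)

omit [Fintype I] [DecidableEq I] in
theorem D_part (s : Finset I) : D s.card (fun η : I → ZMod 2 => ∑ i ∈ s, lf (η i)) := by
  simpa using D.sum (r := 1) s (q := fun i (η : I → ZMod 2) => lf (η i))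
    fun i _ => D.one (Pi.evalAddMonoidHom (fun _ => ZMod 2) i)

omit [DecidableEq I] in
theorem D_wt : D (Fintype.card I) (wt (I := I)) := D_part univ

omit [Fintype I] in
theorem sm_erase {Q : Finset I} {l : I} (hl : l ∈ Q) (η : I → ZMod 2) :
    sm (Q.erase l) η = ∑ j ∈ Q, η j + η l := by
  rw [sm_apply, ← Finset.sum_erase_add Q η hl, add_assoc, CharTwo.add_self_eq_zero, add_zero]

omit [Fintype I] in
theorem D_block {Q R : Finset I} (hQ : Q.card = 4) (hR : R ⊆ Q) :
    D (4 - R.card) (fun η : I → ZMod 2 =>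
      ∑ i ∈ Q, lf (η i) - ∑ i ∈ R, lf (sm (Q.erase i) η)) := by
  have h1 := D.sum (r := 1) (Q \ R) (q := fun i (η : I → ZMod 2) => lf (sm (Q.erase i) η))
    fun i _ => D.one _
  rw [card_sdiff_of_subset hR, hQ, mul_one] at h1
  refine (h1.tr (sm Q)).congr fun η => ?_
  simp only [Pi.add_apply]
  rw [sum_lf_shift Q hQ η, ← sum_sdiff hR, sm_apply]
  have e1 : ∑ i ∈ R, lf (sm (Q.erase i) η) = ∑ i ∈ R, lf (∑ j ∈ Q, η j + η i) :=
    sum_congr rfl fun i hi => by rw [sm_erase (hR hi)]
  have e2 : ∑ i ∈ Q \ R, lf (sm (Q.erase i) η) = ∑ i ∈ Q \ R, lf (∑ j ∈ Q, η j + η i) :=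
    sum_congr rfl fun i hi => by rw [sm_erase (mem_sdiff.mp hi).1]
  rw [e1, e2]; ring

theorem exists_notMem {s : Finset I} (h : s.card < Fintype.card I) : ∃ l, l ∉ s := by
  by_contra hc
  push Not at hc
  rw [eq_univ_iff_forall.mpr hc, card_univ] at h
  exact lt_irrefl _ h

theorem D_one_triple (hI : 8 ≤ Fintype.card I) {a : Finset I} (ha : a.card = 3) :
    D (Fintype.card I - 1) (fun η : I → ZMod 2 => wt η - lf (sm a η)) := by
  obtain ⟨l, hl⟩ := exists_notMem (s := a) (by omega)
  have hQ : (insert l a).card = 4 := by rw [card_insert_of_notMem hl, ha]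
  have h1 := D_block hQ (R := {l}) (by simp)
  have h2 := D_part (insert l a)ᶜ
  rw [card_compl, hQ] at h2
  refine ((h1.add h2).mono (by simp; omega)).congr fun η => ?_
  simp only [Pi.add_apply, sum_singleton, erase_insert hl, wt]
  rw [← sum_add_sum_compl (insert l a)]; ring

theorem D_two_triples (hI : 8 ≤ Fintype.card I) {a b : Finset I} (ha : a.card = 3)
    (hb : b.card = 3) (hab : Even (a ∩ b).card) :
    D (Fintype.card I - 2) (fun η : I → ZMod 2 => wt η - lf (sm a η) - lf (sm b η)) := by
  have hle : (a ∩ b).card ≤ 3 := ha ▸ card_le_card inter_subset_left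
  have hu := card_union_add_card_inter a b
  obtain h0 | h2 : (a ∩ b).card = 0 ∨ (a ∩ b).card = 2 := by
    obtain ⟨c, hc⟩ := hab; omega
  · obtain ⟨l, hl⟩ := exists_notMem (s := a ∪ b) (by omega)
    obtain ⟨l', hl'⟩ := exists_notMem (s := insert l (a ∪ b))
      (by rw [card_insert_of_notMem hl]; omega)
    simp only [mem_insert, mem_union, not_or] at hl hl'
    have hQ : (insert l a).card = 4 := by rw [card_insert_of_notMem hl.1, ha]
    have hQ' : (insert l' b).card = 4 := by rw [card_insert_of_notMem hl'.2.2, hb]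
    have hd : Disjoint (insert l a) (insert l' b) := by
      rw [disjoint_insert_left, disjoint_insert_right, mem_insert, not_or]
      exact ⟨⟨Ne.symm hl'.1, hl.2⟩, hl'.2.1, disjoint_iff_inter_eq_empty.mpr (card_eq_zero.mp h0)⟩
    have h1 := D_block hQ (R := {l}) (by simp)
    have h1' := D_block hQ' (R := {l'}) (by simp)
    have h3 := D_part (insert l a ∪ insert l' b)ᶜ
    rw [card_compl, card_union_of_disjoint hd, hQ, hQ'] at h3
    refine (((h1.add h1').add h3).mono (by simp; omega)).congr fun η => ?_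
    simp only [Pi.add_apply, sum_singleton, erase_insert hl.1, erase_insert hl'.2.2, wt]
    rw [← sum_add_sum_compl (insert l a ∪ insert l' b), sum_union hd]; ring
  · have hQ : (a ∪ b).card = 4 := by omega
    obtain ⟨l, hl, hl2⟩ := exists_eq_insert_iff.mpr
      ⟨(subset_union_left : a ⊆ a ∪ b), by omega⟩
    obtain ⟨l', hl', hl2'⟩ := exists_eq_insert_iff.mpr
      ⟨(subset_union_right : b ⊆ a ∪ b), by omega⟩
    have e1 : (a ∪ b).erase l = a := by rw [← hl2, erase_insert hl]
    have e2 : (a ∪ b).erase l' = b := by rw [← hl2', erase_insert hl']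
    have hne : l ≠ l' := by
      rintro rfl
      rw [e1.symm.trans e2, inter_self] at h2
      omega
    have h1 := D_block hQ (R := {l, l'}) (by
      intro x hx
      rcases mem_insert.mp hx with rfl | hx
      · rw [← hl2]; exact mem_insert_self _ _
      · rw [mem_singleton.mp hx, ← hl2']; exact mem_insert_self _ _)
    have h3 := D_part (a ∪ b)ᶜ
    rw [card_compl, hQ] at h3
    rw [card_pair hne] at h1
    refine ((h1.add h3).mono (by omega)).congr fun η => ?_
    simp only [Pi.add_apply, sum_pair hne, e1, e2, wt]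
    rw [← sum_add_sum_compl (a ∪ b)]; ring

omit [DecidableEq I] in
theorem D_tensor {G : Type} [AddCommGroup G] {r r' : ℕ} {q : G → ZMod 4} (hq : D r q)
    {a : Finset I} (ha : D r' (fun η : I → ZMod 2 => wt η - lf (sm a η))) :
    D (r * r') (fun ξ : I → G => ∑ i, q (ξ i) - q (sm a ξ)) := by
  have key : ∀ l : G →+ ZMod 2, D r' (fun ξ : I → G => ∑ i, lf (l (ξ i)) - lf (l (sm a ξ))) := by
    intro l
    refine (ha.comp (l.compLeft I)).congr fun ξ => ?_
    simp [wt, sm_apply, map_sum]
  induction hq with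
  | zero => rw [zero_mul]; exact D.zero.congr fun ξ => by simp
  | step l _ ih =>
    rw [add_mul, one_mul]
    exact (ih.add (key l)).congr fun ξ => by
      simp only [Pi.add_apply, sum_add_distrib]; ring
  | tr l _ ih =>
    exact (ih.add (key l).double).congr fun ξ => by
      simp only [Pi.add_apply, sum_add_distrib, ← mul_sum]; ring

end triples

end Crest.Agent.R324
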