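import Crest.Agent.R324.Phi

set_option autoImplicit false

namespace Crest.Agent.R324

open Finset Matrix

section
variable (I : Type) [Fintype I] [DecidableEq I]

/-- triples -/
def Tr : Type := {a : Finset I // a.card = 3}

instance : Fintype (Tr I) := inferInstanceAs (Fintype {a : Finset I // a.card = 3})
noncomputable instance : DecidableEq (Tr I) := Classical.decEq _

/-- orthogonal pairs of triples -/
def Zp : Type := {p : Tr I × Tr I // Even (p.1.1 ∩ p.2.1).card}

instance : Fintype (Zp I) :=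
  inferInstanceAs (Fintype {p : Tr I × Tr I // Even (p.1.1 ∩ p.2.1).card})
noncomputable instance : DecidableEq (Zp I) := Classical.decEq _

variable {I}

/-- coefficients of the side information -/
noncomputable def ec (b : Tr I) (ζ : Zp I) : ℂ :=
  if ζ.1.2 = b then -((((ζ.1.1.1 ∩ b.1).card : ℂ) - 1) / 2) else 0
/-- decoding coefficients -/
noncomputable def Jc (b : Tr I) (j : I) : ℂ := ((if j ∈ b.1 then 1 else 0) - 1 / 3) / 2
/-- encoding coefficients -/
noncomputable def Vc (j : I) (a : Tr I) : ℂ := if j ∈ a.1 then 1 else 0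

theorem sum_Jc_Vc (b a : Tr I) :
    ∑ j, Jc b j * Vc j a = (((a.1 ∩ b.1).card : ℂ) - 1) / 2 := by
  simp only [Vc, mul_ite, mul_one, mul_zero, sum_ite_mem, univ_inter, Jc]
  rw [← sum_div, sum_sub_distrib, sum_ite_mem, sum_const, sum_const, a.2]
  simp

theorem code_id {V : Type} [AddCommGroup V] [Module ℂ V] (x : Tr I → V) (b : Tr I) :
    ∑ ζ : Zp I, ec b ζ • x ζ.1.1 + ∑ j, Jc b j • ∑ a, Vc j a • x a = x b := by
  have h1 : ∑ ζ : Zp I, ec b ζ • x ζ.1.1 = ∑ a, (if Even (a.1 ∩ b.1).card then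
      -((((a.1 ∩ b.1).card : ℂ) - 1) / 2) else 0) • x a := by
    refine (sum_subtype (p := fun p : Tr I × Tr I => Even (p.1.1 ∩ p.2.1).card)
      (univ.filter fun p : Tr I × Tr I => Even (p.1.1 ∩ p.2.1).card) (by simp)
      (fun p => (if p.2 = b then -((((p.1.1 ∩ b.1).card : ℂ) - 1) / 2) else 0) •
        x p.1)).symm.trans ?_
    rw [sum_filter, Fintype.sum_prod_type]
    refine sum_congr rfl fun a _ => ?_
    rw [sum_eq_single b]
    · split_ifs <;> simp_all
    · intro b' _ hb'; simp [hb']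
    · simp
  have h2 : ∑ j, Jc b j • ∑ a, Vc j a • x a = ∑ a, ((((a.1 ∩ b.1).card : ℂ) - 1) / 2) • x a := by
    simp only [smul_sum, smul_smul]
    rw [sum_comm]
    simp only [← sum_smul, sum_Jc_Vc]
  rw [h1, h2, ← sum_add_distrib, sum_eq_single b]
  · rw [inter_self, b.2, if_neg (by decide)]
    norm_num
  · intro a _ hab
    split_ifs with h
    · simp
    · have h3 : (a.1 ∩ b.1).card ≤ 3 := (card_le_card inter_subset_left).trans a.2.le
      have h4 : (a.1 ∩ b.1).card ≠ 3 := by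
        intro h4
        apply hab
        have e1 := eq_of_subset_of_card_le (inter_subset_left (s₁ := a.1) (s₂ := b.1))
          (by rw [h4, a.2])
        have e2 := eq_of_subset_of_card_le (inter_subset_right (s₁ := a.1) (s₂ := b.1))
          (by rw [h4, b.2])
        exact Subtype.ext (e1.symm.trans e2)
      have h5 : (a.1 ∩ b.1).card = 1 := by
        rw [Nat.not_even_iff_odd] at h
        obtain ⟨c, hc⟩ := h
        omega
      simp [h5]
  · simp

/-- currying -/
def cu : (I × I → ZMod 2) →+ (I → I → ZMod 2) where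
  toFun ξ i j := ξ (i, j)
  map_zero' := rfl
  map_add' _ _ := rfl

/-- contraction with a column set -/
def cl (b : Finset I) : (I × I → ZMod 2) →+ (I → ZMod 2) := ((sm b).compLeft I).comp cu
/-- contraction with a row set -/
def rw' (a : Finset I) : (I × I → ZMod 2) →+ (I → ZMod 2) := (sm a).comp cu

/-- the rank-one frame of a pair of triples -/
def uu (a b : Finset I) : (I × I → ZMod 2) → ZMod 4 := fun ξ => lf (sm b (rw' a ξ))

omit [Fintype I] [DecidableEq I] in
theorem uu_eq (a b : Finset I) (ξ : I × I → ZMod 2) : uu a b ξ = lf (sm a (cl b ξ)) := by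
  simp only [uu, cl, rw', AddMonoidHom.comp_apply, sm_apply, AddMonoidHom.compLeft_apply,
    Function.comp_apply, Finset.sum_apply]
  rw [sum_comm]

omit [DecidableEq I] in
theorem wt_eq (ξ : I × I → ZMod 2) : wt ξ = ∑ i, wt (cu ξ i) := by
  simp only [wt, Fintype.sum_prod_type]; rfl

/-- the wires of the network -/
abbrev Wr (I Idle : Type) [DecidableEq I] : Type :=
  ((Tr I × Tr I) ⊕ (Tr I × Tr I)) ⊕ ((Tr I × Zp I) ⊕ (Tr I × Zp I)) ⊕ Idle

noncomputable instance (Idle : Type) : DecidableEq (Wr I Idle) := Classical.decEq _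

variable (I) in
/-- additions per entry -/
noncomputable def gadK : ℝ := 2 * stageK (Tr I) (Tr I) (Zp I) I + 6 * Fintype.card (Tr I × Tr I)

theorem gadget (hI : Fintype.card I = 100) {X : Type} [Fintype X] [DecidableEq X]
    {φ : ((I × I → ZMod 2) → ZMod 4) → Matrix X X ℂ} {c : ℝ} (hφ : Realz φ c)
    (Idle : Type) [Fintype Idle] :
    MC (bd1 (Wr I Idle) (φ wt)) ((10000 * Fintype.card (Wr I Idle) -
      (Fintype.card (Tr I) ^ 2 - 20000 * Fintype.card (Tr I))) * c + gadK I * Fintype.card X) := by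
  intro U _ _ x
  have d0 : D 100 (wt (I := I)) := hI ▸ D_wt
  have d1 : ∀ a : Tr I, D 99 (fun η : I → ZMod 2 => wt η - lf (sm a.1 η)) := fun a => by
    simpa [hI] using D_one_triple (by omega) a.2
  have d2 : ∀ ζ : Zp I, D 98 (fun η : I → ZMod 2 =>
      wt η - lf (sm ζ.1.1.1 η) - lf (sm ζ.1.2.1 η)) := fun ζ => by
    simpa [hI] using D_two_triples (by omega) ζ.1.1.2 ζ.1.2.2 ζ.2
  have du : ∀ a b : Finset I, D 1 (uu a b) := fun a b => D.one ((sm b).comp (rw' a))
  let p : Wr I Idle → X → U := fun w t => x (t, w)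
  let S0 : Set U := insert 0 (Set.range x)
  have h0 : (0 : U) ∈ S0 := Set.mem_insert _ _
  have hp : ∀ w, Has φ S0 0 (p w) := fun w t => by
    rw [hφ.zero, act_one]; exact Set.mem_insert_of_mem _ ⟨_, rfl⟩
  let xt : Tr I → Tr I → X → U := fun a b => act (φ (-uu a.1 b.1)) (p (.inl (.inl (a, b))))
  let yt : Tr I → Tr I → X → U := fun a b => p (.inl (.inr (a, b)))
  have hxt : ∀ a b, Has φ S0 (uu a.1 b.1) (xt a b) := fun a b t => by
    simp only [xt]
    rw [← act_mul, ← hφ.add, add_neg_cancel]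
    exact hp _ t
  have he : ∀ (b : Tr I) (ζ : Zp I), ec b ζ ≠ 0 → ζ.1.2 = b := fun b ζ h => by
    by_contra hc
    exact h (if_neg hc)
  obtain ⟨S1, e1, kx1, ky1, kz1⟩ := hφ.fwd (U := U) (Γ := Tr I) (fun ζ : Zp I => ζ.1.1) (fun ζ => ζ.1.2)
    ec Jc Vc he (fun x b => code_id (V := X → U) x b) (fun _ => 0) (fun b ξ => wt (cl b.1 ξ)) (fun b a => uu a.1 b.1)
    (h := 100) (h1 := 99) (h2 := 98) (fun _ _ => du _ _) (fun b => d0.comp _)
    (fun b a => ((d1 a).comp (cl b.1)).congr fun ξ => by simp [uu_eq])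
    (fun b ζ => ((d2 ζ).comp (cl b.1)).congr fun ξ => by simp [uu_eq]) h0
    (x := fun b a => xt a b) (y := fun b a => yt a b) (z := fun b ζ => p (.inr (.inl (.inl (b, ζ)))))
    (fun b a => (hxt a b).congr (zero_add _) rfl) (fun b a => hp _) (fun b ζ => hp _)
  have dmid : ∀ a b : Tr I, D (99 * 99) (fun ξ : I × I → ZMod 2 =>
      wt ξ - wt (rw' a.1 ξ) - wt (cl b.1 ξ) + uu a.1 b.1 ξ) := fun a b =>
    ((D_tensor (d1 b) (d1 a)).comp cu).congr fun ξ => by
      simp only [wt_eq ξ, sum_sub_distrib, uu]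
      have : wt (cl b.1 ξ) = ∑ i, lf (sm b.1 (cu ξ i)) := rfl
      rw [this]
      simp only [rw', AddMonoidHom.comp_apply]
      ring
  have dcol : ∀ b : Tr I, D (100 * 99) (fun ξ : I × I → ZMod 2 => wt ξ - wt (cl b.1 ξ)) :=
    fun b => by
      have := D.sum (univ : Finset I) (q := fun i ξ => wt (cu ξ i) - lf (sm b.1 (cu ξ i)))
        fun i _ => (d1 b).comp ((Pi.evalAddMonoidHom (fun _ => I → ZMod 2) i).comp cu)
      rw [card_univ, hI] at this
      exact this.congr fun ξ => by rw [sum_sub_distrib, wt_eq ξ]; rfl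
  have drow : ∀ a : Tr I, D (100 * 99) (fun ξ : I × I → ZMod 2 => wt ξ - wt (rw' a.1 ξ)) :=
    fun a => ((D_tensor d0 (d1 a)).comp cu).congr fun ξ => by rw [wt_eq ξ]; rfl
  have dfull : D 10000 (wt (I := I × I)) := by simpa [hI] using D_wt (I := I × I)
  obtain ⟨S2, e2, kx2⟩ := hφ.move (ι := Tr I × Tr I)
    (fun i => (wt - fun ξ => wt (rw' i.1.1 ξ)) + uu i.1.1 i.2.1) (fun i => kx1 i.2 i.1)
    (fun i => (dmid i.1 i.2).congr fun ξ => by
      simp only [Pi.add_apply, Pi.sub_apply, Pi.zero_apply]; ring)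
  obtain ⟨S3, e3, ky2⟩ := hφ.move (ι := Tr I × Tr I)
    (fun i => (wt - fun ξ => wt (rw' i.1.1 ξ))) (fun i => (ky1 i.2 i.1).up e2)
    (fun i => (dmid i.1 i.2).congr fun ξ => by
      simp only [Pi.add_apply, Pi.sub_apply, Pi.zero_apply]; ring)
  obtain ⟨S4, e4, kz2⟩ := hφ.move (ι := Tr I × Zp I) (fun _ => wt)
    (fun i => ((kz1 i.1 i.2).up e2).up e3)
    (fun i => (dcol i.1).congr fun ξ => by
      simp only [Pi.add_apply, Pi.sub_apply, Pi.zero_apply]; ring)
  obtain ⟨S5, e5, kw2⟩ := hφ.move (ι := Tr I × Zp I) (fun i => (wt - fun ξ => wt (rw' i.1.1 ξ)))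
    (fun i => ((((hp (.inr (.inl (.inr i)))).up e1).up e2).up e3).up e4)
    (fun i => (drow i.1).congr fun ξ => by
      simp only [Pi.sub_apply, Pi.zero_apply]; ring)
  obtain ⟨S6, e6, ki⟩ := hφ.move (ι := Idle) (fun _ => wt)
    (fun i => (((((hp (.inr (.inr i))).up e1).up e2).up e3).up e4).up e5)
    (fun i => by simpa using dfull)
  obtain ⟨S7, e7, kx3, ky3, kw3⟩ := hφ.rev (U := U) (Γ := Tr I) (fun ζ : Zp I => ζ.1.1) (fun ζ => ζ.1.2)
    ec Jc Vc he (fun x b => code_id (V := X → U) x b) (fun a => wt - fun ξ => wt (rw' a.1 ξ)) (fun a ξ => wt (rw' a.1 ξ))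
    (fun a b => uu a.1 b.1)
    (h := 100) (h1 := 99) (h2 := 98) (fun _ _ => du _ _) (fun a => d0.comp _)
    (fun a b => ((d1 b).comp (rw' a.1)).congr fun ξ => rfl)
    (fun a ζ => ((d2 ζ).comp (rw' a.1)).congr fun ξ => rfl)
    (e6.2 (e5.2 (e4.2 (e3.2 (e2.2 (e1.2 h0))))))
    (x := xt) (y := fun a b => yt a b + xt a b) (z := fun a ζ => p (.inr (.inl (.inr (a, ζ)))))
    (fun a b => ((((kx2 (a, b)).up e3).up e4).up e5).up e6)
    (fun a b => (((ky2 (a, b)).up e4).up e5).up e6) (fun a ζ => (kw2 (a, ζ)).up e6)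
  simp only [sub_add_cancel] at kx3 ky3 kw3
  obtain ⟨S8, e8, k8⟩ := hφ.move (ι := Tr I × Tr I) (fun i => wt - uu i.1.1 i.2.1) (r := 1)
    (fun i => kx3 i.1 i.2) (fun i => by simpa using (du _ _).neg)
  obtain ⟨S9, e9, k9⟩ := lin1 (ι := Tr I × Tr I) 1 (fun i => (ky3 i.1 i.2).up e8) k8
  obtain ⟨S10, e10, k10⟩ := hφ.move (fun i => wt + uu i.1.1 i.2.1) (r := 0) k9
    (fun i => (du i.1.1 i.2.1).double.congr fun ξ => by
      simp only [Pi.add_apply, Pi.sub_apply]; ring)
  obtain ⟨S11, e11, k11⟩ := lin1 (ι := Tr I × Tr I) (-1)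
    (fun i => has_zero (e10.2 (e9.2 (e8.2 (e7.2 (e6.2 (e5.2 (e4.2 (e3.2 (e2.2 (e1.2 h0)))))))))) _)
    (fun i => (((kx3 i.1 i.2).up e8).up e9).up e10)
  refine ((((((((((e1.trans e2).trans e3).trans e4).trans e5).trans e6).trans e7).trans
    e8).trans e9).trans e10).trans e11).1.mono subset_rfl (le_of_eq ?_) ?_
  · simp only [stageM, gadK, Fintype.card_prod, Fintype.card_sum, hI]
    push_cast
    ring
  · have hall : ∀ w, Has φ S11 wt (p w) := by
      rintro ((⟨a, b⟩ | ⟨a, b⟩) | (⟨b, ζ⟩ | ⟨a, ζ⟩) | i)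
      · intro t
        have := ((k10 (a, b)).up e11).congr (v' := xt a b) rfl (by simp) t
        simp only [xt] at this
        rwa [← act_mul, ← hφ.add, add_neg_cancel_right] at this
      · exact (k11 (a, b)).congr rfl (by simp [yt])
      · exact (((((((kz2 (b, ζ)).up e5).up e6).up e7).up e8).up e9).up e10).up e11
      · exact ((((kw3 a ζ).up e8).up e9).up e10).up e11
      · exact (((((ki i).up e7).up e8).up e9).up e10).up e11
    rintro _ ⟨⟨t, w⟩, rfl⟩
    have e : act (bd1 (Wr I Idle) (φ wt)) x (t, w) = act (φ wt) (p w) t := by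
      simp only [act, Fintype.sum_prod_type (α₁ := X), bd1_apply, ite_smul, zero_smul,
        sum_ite_eq, mem_univ, if_true, p]
    rw [e]
    exact hall w t

end

end Crest.Agent.R324
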