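import Crest.Agent.R324.Phi

set_option autoImplicit false

namespace Crest.Agent.R324

open Finset Matrix

section em
variable {ι κ μ α γ : Type} [DecidableEq ι]

/-- the matrix of an index map -/
def Em (a : κ → ι) : Matrix ι κ ℂ := Matrix.of fun i k => if i = a k then 1 else 0

theorem Em_t_mul [Fintype ι] (a : κ → ι) (M : Matrix ι μ ℂ) :
    (Em a)ᵀ * M = M.submatrix a id := by
  ext k j
  simp [Matrix.mul_apply, Em]

theorem mul_Em [Fintype ι] (a : κ → ι) (M : Matrix μ ι ℂ) : M * Em a = M.submatrix id a := by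
  ext k j
  simp [Matrix.mul_apply, Em]

theorem Em_self [Fintype ι] [DecidableEq κ] {a : κ → ι} (ha : Function.Injective a) : (Em a)ᵀ * Em a = 1 := by
  rw [Em_t_mul]
  ext k j
  simp [Em, ha.eq_iff, Matrix.one_apply]

theorem Em_disj [Fintype ι] {a : κ → ι} {b : μ → ι} (h : ∀ k k', a k ≠ b k') :
    (Em a)ᵀ * Em b = 0 := by
  rw [Em_t_mul]
  ext k j
  simp [Em, h]

theorem Em_comp [Fintype γ] [DecidableEq γ] (z : γ → ι) (a : κ → γ) : Em z * Em a = Em (z ∘ a) := by
  rw [mul_Em]; rfl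

theorem Em_comp_t [Fintype γ] [DecidableEq γ] (z : γ → ι) (a : κ → γ) : (Em a)ᵀ * (Em z)ᵀ = (Em (z ∘ a))ᵀ := by
  rw [← transpose_mul, Em_comp]

theorem sw_apply [Fintype κ] [Fintype μ] [DecidableEq α] {b : κ → ι} {a : μ → α} (hb : Function.Injective b)
    (ha : Function.Injective a) (M : Matrix κ μ ℂ) (k : κ) (k' : μ) :
    (Em b * M * (Em a)ᵀ) (b k) (a k') = M k k' := by
  classical
  simp [Matrix.mul_apply, Em, hb.eq_iff, ha.eq_iff]

theorem sw_row [Fintype κ] [Fintype μ] [DecidableEq α] {b : κ → ι} (a : μ → α) (M : Matrix κ μ ℂ) {i : ι}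
    (hi : ∀ k, i ≠ b k) (j : α) : (Em b * M * (Em a)ᵀ) i j = 0 := by
  simp [Matrix.mul_apply, Em, hi]

theorem sw_col [Fintype κ] [Fintype μ] [DecidableEq α] (b : κ → ι) {a : μ → α} (M : Matrix κ μ ℂ)
    (i : ι) {j : α}
    (hj : ∀ k, j ≠ a k) : (Em b * M * (Em a)ᵀ) i j = 0 := by
  simp [Matrix.mul_apply, Em, hj]

variable [Fintype ι]

/-- one parallel round of updates `x (b k) += t k * x (a k)` -/
def IsShear (S : Matrix ι ι ℂ) : Prop :=
  ∃ (κ : Type) (_ : Fintype κ) (_ : DecidableEq κ) (a b : κ → ι) (t : κ → ℂ), Function.Injective a ∧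
    Function.Injective b ∧ (∀ k k', a k ≠ b k') ∧ S = 1 + Em b * diagonal t * (Em a)ᵀ

/-- in-place computation with `L` rounds of updates -/
inductive Lay : ℕ → Matrix ι ι ℂ → Prop
  | mon {M : Matrix ι ι ℂ} : IsMon M → Lay 0 M
  | step {L : ℕ} {M S A : Matrix ι ι ℂ} : IsMon M → IsShear S → Lay L A → Lay (L + 1) (M * S * A)

theorem Lay.mon_mul {L : ℕ} {M A : Matrix ι ι ℂ} (hM : IsMon M) (h : Lay L A) : Lay L (M * A) := by
  cases h with
  | mon h => exact Lay.mon (hM.mul h)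
  | step h1 h2 h3 =>
    rw [← Matrix.mul_assoc, ← Matrix.mul_assoc]
    exact Lay.step (hM.mul h1) h2 h3

theorem Lay.mul {L L' : ℕ} {A B : Matrix ι ι ℂ} (h : Lay L A) (h' : Lay L' B) :
    Lay (L + L') (A * B) := by
  induction h with
  | mon h => rw [zero_add]; exact h'.mon_mul h
  | step h1 h2 _ ih =>
    rw [Matrix.mul_assoc, add_right_comm]
    exact Lay.step h1 h2 ih

theorem IsShear.lay {S : Matrix ι ι ℂ} (h : IsShear S) : Lay 1 S := by
  have := Lay.step isMon_one h (Lay.mon isMon_one)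
  simpa using this

omit [Fintype ι] in
theorem isShear_one : IsShear (1 : Matrix ι ι ℂ) :=
  ⟨Empty, inferInstance, inferInstance, Empty.elim, Empty.elim, Empty.elim, fun x => x.elim, fun x => x.elim,
    fun x => x.elim, by ext; simp [Matrix.mul_apply]⟩

theorem Lay.mono {L L' : ℕ} {A : Matrix ι ι ℂ} (h : Lay L A) (hL : L ≤ L') : Lay L' A := by
  induction hL with
  | refl => exact h
  | step _ ih => simpa using ih.mul isShear_one.lay

theorem Lay.congr {L : ℕ} {A B : Matrix ι ι ℂ} (h : Lay L A) (e : B = A) : Lay L B := e ▸ h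

variable [Fintype γ] [DecidableEq γ]

/-- extension by the identity -/
noncomputable def emb (z : γ → ι) (U : Matrix γ γ ℂ) : Matrix ι ι ℂ :=
  1 + Em z * (U - 1) * (Em z)ᵀ

theorem emb_mul {z : γ → ι} (hz : Function.Injective z) (U V : Matrix γ γ ℂ) :
    emb z (U * V) = emb z U * emb z V := by
  have h : Em z * (U - 1) * (Em z)ᵀ * (Em z * (V - 1) * (Em z)ᵀ) =
      Em z * ((U - 1) * (V - 1)) * (Em z)ᵀ := by
    calc _ = Em z * (U - 1) * ((Em z)ᵀ * Em z) * (V - 1) * (Em z)ᵀ := by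
          simp only [Matrix.mul_assoc]
      _ = _ := by rw [Em_self hz]; simp only [Matrix.mul_assoc, Matrix.mul_one]
  have h2 : U * V - 1 = (U - 1) + (V - 1) + (U - 1) * (V - 1) := by noncomm_ring
  unfold emb
  rw [add_mul, mul_add, mul_add, h, h2]
  simp only [Matrix.mul_add, Matrix.add_mul, one_mul, mul_one]
  abel

omit [Fintype ι] in
theorem emb_apply {z : γ → ι} (hz : Function.Injective z) (U : Matrix γ γ ℂ) (i j : γ) :
    emb z U (z i) (z j) = U i j := by
  rw [emb, Matrix.add_apply, sw_apply hz hz]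
  simp [Matrix.one_apply, hz.eq_iff]

omit [Fintype ι] in
theorem IsMon.emb {z : γ → ι} (hz : Function.Injective z) {U : Matrix γ γ ℂ} (h : IsMon U) :
    IsMon (emb z U) := by
  obtain ⟨σ, hσ⟩ := h
  refine ⟨Function.extend z (z ∘ σ) id, fun i j hj => ?_⟩
  by_cases hi : ∃ i', z i' = i
  · obtain ⟨i', rfl⟩ := hi
    rw [hz.extend_apply] at hj
    by_cases hj2 : ∃ j', z j' = j
    · obtain ⟨j', rfl⟩ := hj2
      rw [emb_apply hz]
      exact hσ _ _ fun h => hj (congrArg z h)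
    · push Not at hj2
      rw [R324.emb, Matrix.add_apply, sw_col _ _ _ fun k => (hj2 k).symm,
        Matrix.one_apply_ne (hj2 _), add_zero]
  · rw [Function.extend_apply' _ _ _ hi] at hj
    push Not at hi
    rw [R324.emb, Matrix.add_apply, sw_row _ _ fun k => (hi k).symm,
      Matrix.one_apply_ne (show i ≠ j from Ne.symm hj), add_zero]

omit [Fintype ι] in
theorem emb_shear {α β : Type} [Fintype α] [Fintype β] (z : γ → ι) (a : α → γ) (b : β → γ)
    (M : Matrix β α ℂ) : emb z (1 + Em b * M * (Em a)ᵀ) = 1 + Em (z ∘ b) * M * (Em (z ∘ a))ᵀ := by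
  rw [emb, add_sub_cancel_left, ← Em_comp, ← Em_comp_t]
  simp only [Matrix.mul_assoc]

omit [Fintype ι] in
theorem IsShear.emb {z : γ → ι} (hz : Function.Injective z) {U : Matrix γ γ ℂ} (h : IsShear U) :
    IsShear (emb z U) := by
  obtain ⟨κ, _, _, a, b, t, ha, hb, hab, rfl⟩ := h
  exact ⟨κ, inferInstance, inferInstance, z ∘ a, z ∘ b, t, hz.comp ha, hz.comp hb,
    fun k k' h => hab k k' (hz h), emb_shear _ _ _ _⟩

theorem Lay.emb {z : γ → ι} (hz : Function.Injective z) {L : ℕ} {U : Matrix γ γ ℂ} (h : Lay L U) :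
    Lay L (emb z U) := by
  induction h with
  | mon h => exact Lay.mon (h.emb hz)
  | step h1 h2 _ ih =>
    rw [emb_mul hz, emb_mul hz]
    exact Lay.step (h1.emb hz) (h2.emb hz) ih

theorem Lay.of_equiv (e : γ ≃ ι) {L : ℕ} {U : Matrix γ γ ℂ} (h : Lay L U) {V : Matrix ι ι ℂ}
    (hV : ∀ i j, V (e i) (e j) = U i j) : Lay L V := by
  refine (h.emb e.injective).congr ?_
  ext i j
  obtain ⟨i, rfl⟩ := e.surjective i
  obtain ⟨j, rfl⟩ := e.surjective j
  rw [emb_apply e.injective, hV]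

omit [Fintype γ] in
theorem IsShear.bd1 (B : Type) [Fintype B] [DecidableEq B] {U : Matrix γ γ ℂ} (h : IsShear U) :
    IsShear (bd1 B U) := by
  obtain ⟨κ, _, _, a, b, t, ha, hb, hab, rfl⟩ := h
  have hE : ∀ a : κ → γ, Em (Prod.map a (id : B → B)) = R324.bd1 B (Em a) := by
    intro a
    ext ⟨i, x⟩ ⟨j, y⟩
    simp only [Em, Matrix.of_apply, bd1_apply, Prod.map, id, Prod.mk.injEq]
    by_cases h1 : x = y <;> simp [h1]
  refine ⟨κ × B, inferInstance, inferInstance, Prod.map a id, Prod.map b id, fun k => t k.1,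
    ha.prodMap Function.injective_id, hb.prodMap Function.injective_id,
    fun k k' h => hab _ _ (congrArg Prod.fst h), ?_⟩
  have hd : diagonal (fun k : κ × B => t k.1) = R324.bd1 B (diagonal t) := by
    rw [R324.bd1, blockDiagonal_diagonal]
  have ht : (R324.bd1 B (Em a))ᵀ = R324.bd1 B (Em a)ᵀ := blockDiagonal_transpose _
  rw [hE, hE, hd, ht, ← bd1_mul, ← bd1_mul]
  ext ⟨i, x⟩ ⟨j, y⟩
  simp only [bd1_apply, Matrix.add_apply, Matrix.one_apply, Prod.mk.injEq]
  by_cases h1 : x = y <;> simp [h1]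

theorem Lay.bd1 (B : Type) [Fintype B] [DecidableEq B] {L : ℕ} {U : Matrix γ γ ℂ} (h : Lay L U) :
    Lay L (bd1 B U) := by
  induction h with
  | mon h => exact Lay.mon (IsMon.bd fun _ => h)
  | step h1 h2 _ ih =>
    rw [bd1_mul, bd1_mul]
    exact Lay.step (IsMon.bd fun _ => h1) (h2.bd1 B) ih

theorem lay_shear_sub [Fintype α] [DecidableEq α] {x y : α → ι} {z : γ → ι} (hx : Function.Injective x)
    (hy : Function.Injective y) (hz : Function.Injective z) (hxy : ∀ k k', x k ≠ y k')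
    (hxz : ∀ k k', x k ≠ z k') (hzy : ∀ k k', z k ≠ y k') {π : α → γ}
    (hπ : Function.Injective π) {L : ℕ} {U U' : Matrix γ γ ℂ} (hU : Lay L U) (hU' : Lay L U')
    (hUU : U' * U = 1) (d d' : α → ℂ) :
    Lay (4 * L + 4) (1 + Em y * (diagonal d * U.submatrix π π * diagonal d') * (Em x)ᵀ) := by
  have h1 : ∀ d : α → ℂ,
      Lay (2 * L + 1) (1 + Em y * (diagonal d * (Em π)ᵀ * U) * (Em z)ᵀ) := by
    intro d
    have hs : IsShear (1 + Em y * diagonal d * (Em (z ∘ π))ᵀ) :=
      ⟨α, inferInstance, inferInstance, z ∘ π, y, d, hz.comp hπ, hy, fun k k' => hzy _ _, rfl⟩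
    refine ((((hU'.emb hz).mul hs.lay).mul (hU.emb hz)).mono (by omega)).congr ?_
    have e1 : emb z U' * Em y = Em y := by
      rw [emb, Matrix.add_mul, Matrix.mul_assoc, Em_disj hzy]; simp
    have e2 : (Em z)ᵀ * emb z U = U * (Em z)ᵀ := by
      rw [emb, Matrix.mul_add, ← Matrix.mul_assoc, ← Matrix.mul_assoc, Em_self hz]
      simp [Matrix.sub_mul]
    have e3 : emb z U' * emb z U = 1 := by rw [← emb_mul hz, hUU]; simp [emb]
    rw [mul_add, add_mul, mul_one, e3, ← Em_comp_t]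
    congr 1
    calc _ = Em y * diagonal d * (Em π)ᵀ * (U * (Em z)ᵀ) := by simp only [Matrix.mul_assoc]
      _ = (emb z U' * Em y) * diagonal d * (Em π)ᵀ * ((Em z)ᵀ * emb z U) := by rw [e1, e2]
      _ = _ := by simp only [Matrix.mul_assoc]
  have h2 : ∀ d : α → ℂ, Lay 1 (1 + Em (z ∘ π) * diagonal d * (Em x)ᵀ) := fun d =>
    IsShear.lay ⟨α, inferInstance, inferInstance, x, z ∘ π, d, hx, hz.comp hπ, fun k k' => hxz _ _, rfl⟩
  refine (((((h1 d).mul (h2 d')).mul (h1 (-d))).mul (h2 (-d'))).mono (by omega)).congr ?_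
  have hneg : ∀ d : α → ℂ, diagonal (-d) = -diagonal d := fun d => (diagonal_neg d).symm
  obtain ⟨A, hA⟩ : ∃ A, A = Em y * (diagonal d * (Em π)ᵀ * U) * (Em z)ᵀ := ⟨_, rfl⟩
  obtain ⟨B, hB⟩ : ∃ B, B = Em (z ∘ π) * diagonal d' * (Em x)ᵀ := ⟨_, rfl⟩
  have hA' : Em y * (diagonal (-d) * (Em π)ᵀ * U) * (Em z)ᵀ = -A := by
    rw [hA, hneg]; simp only [Matrix.neg_mul, Matrix.mul_neg]
  have hB' : Em (z ∘ π) * diagonal (-d') * (Em x)ᵀ = -B := by
    rw [hB, hneg]; simp only [Matrix.neg_mul, Matrix.mul_neg]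
  have hAB : Em y * (diagonal d * U.submatrix π π * diagonal d') * (Em x)ᵀ = A * B := by
    have : U.submatrix π π = (Em π)ᵀ * U * Em π := by rw [Em_t_mul, mul_Em]; rfl
    rw [hA, hB, this, ← Em_comp]
    calc _ = Em y * (diagonal d * (Em π)ᵀ * U) * ((Em z)ᵀ * Em z) * Em π * diagonal d' *
          (Em x)ᵀ := by rw [Em_self hz]; simp only [Matrix.mul_assoc, Matrix.mul_one]
      _ = _ := by simp only [Matrix.mul_assoc]
  have hAA : A * A = 0 := by
    rw [hA, Matrix.mul_assoc _ (Em z)ᵀ, Matrix.mul_assoc (Em y) _ (Em z)ᵀ,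
      ← Matrix.mul_assoc (Em z)ᵀ, Em_disj hzy]; simp
  have hBA : B * A = 0 := by
    rw [hA, hB, Matrix.mul_assoc _ (Em x)ᵀ, Matrix.mul_assoc (Em y) _ (Em z)ᵀ,
      ← Matrix.mul_assoc (Em x)ᵀ, Em_disj hxy]; simp
  have hBB : B * B = 0 := by
    rw [hB, Matrix.mul_assoc _ (Em x)ᵀ, Matrix.mul_assoc (Em (z ∘ π)) _ (Em x)ᵀ,
      ← Matrix.mul_assoc (Em x)ᵀ, Em_disj (a := x) (b := z ∘ π) (fun k k' => hxz _ _)]; simp
  rw [hA', hB', hAB, ← hA, ← hB]
  have : (1 + A) * (1 + B) * (1 + -A) * (1 + -B) = 1 + A * B + (-(A * A) - B * A - B * B +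
      A * A * B + B * A * B - A * (B * A) - A * (B * B) + A * (B * A) * B) := by noncomm_ring
  rw [this, hAA, hBA, hBB]
  simp

end em

/-- the elementary two by two update -/
def Esh (τ : ℂ) : Matrix (ZMod 2) (ZMod 2) ℂ :=
  Matrix.of fun x y => if x = y then 1 else if x = 1 then τ else 0

theorem Esh_word (τ : ℂ) : ∃ d₀ d₁ d₂ d₃ : ZMod 2 → ℂ,
    Esh τ = diagonal d₀ * Cm * diagonal d₁ * Cm * diagonal d₂ * Cm * diagonal d₃ := by
  by_cases hτ : τ = 0
  · subst hτ
    refine ⟨fun x => if x = 0 then -Complex.I else 1, fun x => if x = 0 then 1 else Complex.I,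
      fun x => if x = 0 then 1 else Complex.I, fun _ => 1, ?_⟩
    ext x y
    rcases zmod2_cases x with rfl | rfl <;> rcases zmod2_cases y with rfl | rfl <;>
      simp [Matrix.mul_apply, sum_zmod2, Cm, Esh, diagonal_apply, Complex.ext_iff] <;> norm_num
  · refine ⟨fun x => if x = 0 then (-1 - Complex.I) / 4 else τ * ((-1 + Complex.I) / 5),
      fun x => if x = 0 then 1 else -3,
      fun x => if x = 0 then 1 else 2, fun x => if x = 0 then 1 else τ⁻¹ * (-5 * Complex.I / 3), ?_⟩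
    have h : τ * τ⁻¹ = 1 := mul_inv_cancel₀ hτ
    have hI := Complex.I_sq
    ext x y
    rcases zmod2_cases x with rfl | rfl <;> rcases zmod2_cases y with rfl | rfl <;>
      simp [Matrix.mul_apply, sum_zmod2, Cm, Esh, diagonal_apply] <;> field_simp <;> ring_nf <;>
      simp [Complex.I_pow_four, pow_succ, Complex.ext_iff] <;> norm_num

theorem shear_word {ι κ' : Type} [Fintype ι] [DecidableEq ι] [Fintype κ'] [DecidableEq κ']
    (e₀ : ι ≃ ZMod 2 × κ') {S : Matrix ι ι ℂ} (h : IsShear S) :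
    ∃ (e : ι ≃ ZMod 2 × κ') (M₀ M₁ M₂ M₃ : Matrix ι ι ℂ), IsMon M₀ ∧ IsMon M₁ ∧ IsMon M₂ ∧
      IsMon M₃ ∧ S = M₀ * (bd1 κ' Cm).submatrix e e * M₁ * (bd1 κ' Cm).submatrix e e * M₂ *
        (bd1 κ' Cm).submatrix e e * M₃ := by
  obtain ⟨κ, _, _, a, b, t, ha, hb, hab, rfl⟩ := h
  let f : ZMod 2 × κ → ι := fun p => if p.1 = 0 then a p.2 else b p.2
  have hf : Function.Injective f := by
    rintro ⟨s, k⟩ ⟨s', k'⟩ h
    rcases zmod2_cases s with rfl | rfl <;> rcases zmod2_cases s' with rfl | rfl <;>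
      simp only [f, if_true, one_ne_zero, if_false] at h
    · rw [ha h]
    · exact absurd h (hab _ _)
    · exact absurd h.symm (hab _ _)
    · rw [hb h]
  obtain ⟨g⟩ : Nonempty (κ ↪ κ') := by
    refine Function.Embedding.nonempty_of_card_le ?_
    have h1 := Fintype.card_le_of_injective f hf
    rw [Fintype.card_congr e₀] at h1
    simp only [Fintype.card_prod, ZMod.card] at h1
    omega
  obtain ⟨σ, hσ⟩ := Equiv.Perm.exists_extending_pair _ _ (e₀.injective.comp hf)
    (Function.injective_id.prodMap g.injective)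
  have hea : ∀ k, e₀.trans σ (a k) = (0, g k) := fun k => hσ (0, k)
  have heb : ∀ k, e₀.trans σ (b k) = (1, g k) := fun k => hσ (1, k)
  generalize e₀.trans σ = e at hea heb
  choose d₀ d₁ d₂ d₃ hd using fun k' : κ' => Esh_word (Function.extend g t 0 k')
  have hone : ∀ i j, (1 : Matrix ι ι ℂ) i j = if e i = e j then 1 else 0 := by
    intro i j; simp [Matrix.one_apply]
  have key : 1 + Em b * diagonal t * (Em a)ᵀ =
      (blockDiagonal fun k' => Esh (Function.extend g t 0 k')).submatrix e e := by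
    ext i j
    by_cases hi : ∃ k, b k = i
    · obtain ⟨k, rfl⟩ := hi
      by_cases hj : ∃ k', a k' = j
      · obtain ⟨k', rfl⟩ := hj
        rw [Matrix.add_apply, sw_apply hb ha, Matrix.one_apply_ne (hab _ _).symm]
        simp [hea, heb, blockDiagonal_apply, Esh, diagonal_apply, g.injective.extend_apply]
      · push Not at hj
        rw [Matrix.add_apply, sw_col _ _ _ fun k => (hj k).symm, add_zero, hone,
          submatrix_apply, heb]
        have hj' : e j ≠ (0, g k) := fun h => hj k (e.injective (by rw [hea, h]))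
        generalize e j = w at hj' ⊢
        obtain ⟨s, k'⟩ := w
        rcases zmod2_cases s with rfl | rfl
        · simp only [ne_eq, Prod.mk.injEq, true_and] at hj'
          simp [blockDiagonal_apply, Ne.symm hj']
        · simp [blockDiagonal_apply, Esh]
    · push Not at hi
      rw [Matrix.add_apply, sw_row _ _ fun k => (hi k).symm, add_zero, hone,
        submatrix_apply]
      have hi' : ∀ k, e i ≠ (1, g k) := fun k h => hi k (e.injective (by rw [heb, h]))
      generalize e i = w at hi' ⊢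
      generalize e j = w'
      obtain ⟨s, k⟩ := w
      obtain ⟨s', k'⟩ := w'
      have h0 : s = 1 → Function.extend g t 0 k = 0 := by
        rintro rfl
        rw [Function.extend_apply' _ _ _ fun ⟨k₀, hk₀⟩ => hi' k₀ (by rw [hk₀])]
        rfl
      by_cases h1 : k = k' <;> by_cases h2 : s = s' <;> simp [blockDiagonal_apply, Esh, h1, h2]
      intro h
      subst h1 
      exact (h0 h).symm
  refine ⟨e, (blockDiagonal fun k => diagonal (d₀ k)).submatrix e e,
    (blockDiagonal fun k => diagonal (d₁ k)).submatrix e e,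
    (blockDiagonal fun k => diagonal (d₂ k)).submatrix e e,
    (blockDiagonal fun k => diagonal (d₃ k)).submatrix e e,
    (IsMon.bd fun _ => isMon_diagonal _).submatrix_equiv _ _,
    (IsMon.bd fun _ => isMon_diagonal _).submatrix_equiv _ _,
    (IsMon.bd fun _ => isMon_diagonal _).submatrix_equiv _ _,
    (IsMon.bd fun _ => isMon_diagonal _).submatrix_equiv _ _, ?_⟩
  rw [key]
  simp only [hd, blockDiagonal_mul, submatrix_mul_equiv]

theorem Lay.zero_inv {ι : Type} [Fintype ι] [DecidableEq ι] {A : Matrix ι ι ℂ} (h : Lay 0 A) :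
    IsMon A := by
  cases h with
  | mon h => exact h

theorem Lay.succ_inv {ι : Type} [Fintype ι] [DecidableEq ι] {L : ℕ} {A : Matrix ι ι ℂ}
    (h : Lay (L + 1) A) : ∃ M S A', IsMon M ∧ IsShear S ∧ Lay L A' ∧ A = M * S * A' := by
  cases h with
  | step h1 h2 h3 => exact ⟨_, _, _, h1, h2, h3, rfl⟩

theorem mc_tensor {J B : Type} [Fintype J] [DecidableEq J] [Fintype B] [DecidableEq B]
    {ι κ : J → Type} [∀ j, Fintype (ι j)] [∀ j, DecidableEq (ι j)] [∀ j, Fintype (κ j)]
    [∀ j, DecidableEq (κ j)] (e₀ : ∀ j, ι j ≃ ZMod 2 × κ j) {t : ℝ}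
    (h : PC (Fintype.card J) t) (hB : Wb ∣ Fintype.card B) (L : ℕ) :
    ∀ A : ∀ j, Matrix (ι j) (ι j) ℂ, (∀ j, Lay L (A j)) →
      MC (bd1 B (tp A)) (Fintype.card ((∀ j, ι j) × B) * (L * (3 * t + 5) + 1)) := by
  have hm : ∀ M : ∀ j, Matrix (ι j) (ι j) ℂ, (∀ j, IsMon (M j)) →
      MC (bd1 B (tp M)) (Fintype.card ((∀ j, ι j) × B)) := fun M hM =>
    (IsMon.bd fun _ => IsMon.tp hM).mc
  have hc : ∀ e : ∀ j, ι j ≃ ZMod 2 × κ j,
      MC (bd1 B (tp fun j => (bd1 (κ j) Cm).submatrix (e j) (e j)))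
        (Fintype.card ((∀ j, ι j) × B) * t) := by
    intro e
    refine ((h J ((∀ j, κ j) × B) rfl (by rw [Fintype.card_prod]; exact hB.mul_left _)).of_eq
      (fun x => (fun j => (e j (x.1 j)).1, (fun j => (e j (x.1 j)).2, x.2)))
      (fun x => (fun j => (e j (x.1 j)).1, (fun j => (e j (x.1 j)).2, x.2))) ?_ ?_).mono
      (le_of_eq ?_)
    · intro x y hxy
      simp only [Prod.mk.injEq] at hxy
      exact Prod.ext (funext fun j => (e j).injective
        (Prod.ext (congrFun hxy.1 j) (congrFun hxy.2.1 j))) hxy.2.2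
    · intro x y
      simp only [bd1_apply, tp_apply, submatrix_apply, Fintype.prod_ite_zero, Prod.mk.injEq,
        funext_iff, ← ite_and, and_comm]
    · simp only [Fintype.card_prod, Fintype.card_pi, Fintype.card_congr (e _), ZMod.card,
        prod_mul_distrib, prod_const, card_univ]
      push_cast
      ring
  induction L with
  | zero => intro A hA; simpa using hm A fun j => (hA j).zero_inv
  | succ L ih =>
    intro A hA
    choose M S A' hM hS hA' hE using fun j => (hA j).succ_inv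
    choose e M₀ M₁ M₂ M₃ h₀ h₁ h₂ h₃ hE' using fun j => shear_word (e₀ j) (hS j)
    have hc' := hc e
    generalize hX : (fun j => (bd1 (κ j) Cm).submatrix (e j) (e j)) = X at hc'
    have e1 : tp A = tp M * tp S * tp A' := by
      rw [← tp_mul, ← tp_mul]; exact congrArg tp (funext hE)
    have e2 : tp S = tp M₀ * tp X * tp M₁ * tp X * tp M₂ * tp X * tp M₃ := by
      rw [← tp_mul, ← tp_mul, ← tp_mul, ← tp_mul, ← tp_mul, ← tp_mul, ← hX]
      exact congrArg tp (funext hE')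
    rw [e1, e2, bd1_mul, bd1_mul, bd1_mul, bd1_mul, bd1_mul, bd1_mul, bd1_mul, bd1_mul]
    refine (((hm M hM).mul (((((((hm M₀ h₀).mul hc').mul (hm M₁ h₁)).mul hc').mul
      (hm M₂ h₂)).mul hc').mul (hm M₃ h₃))).mul (ih A' hA')).mono (le_of_eq ?_)
    push_cast
    ring

end Crest.Agent.R324
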