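import Crest.Agent.R324.Stage

set_option autoImplicit false

namespace Crest.Agent.R324

open Finset Matrix

theorem zmod2_cases (x : ZMod 2) : x = 0 ∨ x = 1 := by revert x; decide

theorem sum_zmod2 {M : Type*} [AddCommMonoid M] (f : ZMod 2 → M) : ∑ x, f x = f 0 + f 1 :=
  Fin.sum_univ_two f

/-- the sign character -/
def sgn (x : ZMod 2) : ℂ := if x = 0 then 1 else -1

theorem sgn_zero : sgn 0 = 1 := by simp [sgn]
theorem sgn_one : sgn 1 = -1 := by simp [sgn]

theorem sgn_add (x y : ZMod 2) : sgn (x + y) = sgn x * sgn y := by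
  have h : (1 : ZMod 2) + 1 = 0 := by decide
  rcases zmod2_cases x with rfl | rfl <;> rcases zmod2_cases y with rfl | rfl <;>
    simp [h, sgn_zero, sgn_one]

theorem sgn_sum {ι : Type*} (s : Finset ι) (f : ι → ZMod 2) :
    sgn (∑ i ∈ s, f i) = ∏ i ∈ s, sgn (f i) := by
  classical
  induction s using Finset.induction_on with
  | empty => simp [sgn_zero]
  | insert a s ha ih => rw [sum_insert ha, prod_insert ha, sgn_add, ih]

/-- powers of the imaginary unit -/
noncomputable def i4 (q : ZMod 4) : ℂ := Complex.I ^ q.val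

theorem i4_zero : i4 0 = 1 := by simp [i4]

theorem i4_add (a b : ZMod 4) : i4 (a + b) = i4 a * i4 b := by
  unfold i4
  rw [ZMod.val_add, ← pow_add, ← pow_eq_pow_mod _ Complex.I_pow_four]

theorem i4_sum {ι : Type*} (s : Finset ι) (f : ι → ZMod 4) :
    i4 (∑ i ∈ s, f i) = ∏ i ∈ s, i4 (f i) := by
  classical
  induction s using Finset.induction_on with
  | empty => simp [i4_zero]
  | insert a s ha ih => rw [sum_insert ha, prod_insert ha, i4_add, ih]

theorem i4_lf (x : ZMod 2) :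
    i4 (lf x) = (1 + Complex.I) / 2 + (1 - Complex.I) / 2 * sgn x := by
  rcases zmod2_cases x with rfl | rfl
  · rw [lf_zero, i4_zero, sgn_zero]; ring
  · have : (lf 1).val = 1 := by decide
    rw [i4, this, sgn_one]; ring

theorem i4_two_lf (x : ZMod 2) : i4 (2 * lf x) = sgn x := by
  rcases zmod2_cases x with rfl | rfl
  · rw [lf_zero, mul_zero, i4_zero, sgn_zero]
  · have : (2 * lf 1).val = 2 := by decide
    rw [i4, this, sgn_one, Complex.I_sq]

/-- the Hadamard matrix -/
def Hm : Matrix (ZMod 2) (ZMod 2) ℂ := Matrix.of fun x y => sgn (x * y)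

theorem Hm_mul : ((1 / 2 : ℂ) • Hm) * Hm = 1 := by
  ext x y
  rcases zmod2_cases x with rfl | rfl <;> rcases zmod2_cases y with rfl | rfl <;>
    simp [Matrix.mul_apply, sum_zmod2, Hm, sgn_zero, sgn_one] <;> norm_num

theorem Cm_eq : ((1 / 2 : ℂ) • Hm) * diagonal (fun x => i4 (lf x)) * Hm = Cm := by
  ext x y
  rcases zmod2_cases x with rfl | rfl <;> rcases zmod2_cases y with rfl | rfl <;>
    simp [Matrix.mul_apply, sum_zmod2, Hm, sgn_zero, sgn_one, Cm, i4_lf, diagonal_apply] <;> ring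

section
variable {M : Type} [Fintype M] [DecidableEq M]

/-- Fourier multiplier on `M → ZMod 2` -/
noncomputable def Mu (μ : (M → ZMod 2) → ℂ) : Matrix (M → ZMod 2) (M → ZMod 2) ℂ :=
  tp (fun _ : M => (1 / 2 : ℂ) • Hm) * diagonal μ * tp (fun _ : M => Hm)

theorem H1_left : tp (fun _ : M => (1 / 2 : ℂ) • Hm) * tp (fun _ : M => Hm) = 1 := by
  rw [← tp_mul]; simp only [Hm_mul]; exact tp_one

theorem Mu_mul (μ ν : (M → ZMod 2) → ℂ) : Mu (fun ξ => μ ξ * ν ξ) = Mu μ * Mu ν := by
  have h := mul_eq_one_comm.mp (H1_left (M := M))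
  unfold Mu
  rw [← diagonal_mul_diagonal]
  calc _ = tp (fun _ : M => (1 / 2 : ℂ) • Hm) * diagonal μ *
        (tp (fun _ : M => Hm) * tp (fun _ : M => (1 / 2 : ℂ) • Hm)) * diagonal ν *
        tp (fun _ : M => Hm) := by rw [h]; simp only [Matrix.mul_one, Matrix.mul_assoc]
    _ = _ := by simp only [Matrix.mul_assoc]

theorem Mu_one : Mu (fun _ : M → ZMod 2 => 1) = 1 := by
  unfold Mu
  rw [diagonal_one, Matrix.mul_one, H1_left]

theorem Mu_lin (a b : ℂ) (μ : (M → ZMod 2) → ℂ) :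
    Mu (fun ξ => a + b * μ ξ) = a • 1 + b • Mu μ := by
  rw [← Mu_one]
  unfold Mu
  have : diagonal (fun ξ => a + b * μ ξ) = a • diagonal (fun _ => 1) + b • diagonal μ := by
    ext x y
    by_cases h : x = y <;> simp [h]
  rw [this]
  simp only [Matrix.mul_add, Matrix.add_mul, Matrix.mul_smul, Matrix.smul_mul]

/-- the vector of a linear form -/
def vec (l : (M → ZMod 2) →+ ZMod 2) : M → ZMod 2 := fun i => l (Pi.single i 1)

theorem form_eq (l : (M → ZMod 2) →+ ZMod 2) (ξ : M → ZMod 2) : l ξ = ∑ i, ξ i * vec l i := by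
  conv_lhs => rw [← Finset.univ_sum_single ξ, map_sum]
  refine sum_congr rfl fun i _ => ?_
  rcases zmod2_cases (ξ i) with h | h <;> simp [h, vec]

theorem Mu_sgn (l : (M → ZMod 2) →+ ZMod 2) :
    Mu (fun ξ => sgn (l ξ)) = Matrix.of fun x y => if x = y + vec l then 1 else 0 := by
  have h : diagonal (fun ξ => sgn (l ξ)) * tp (fun _ : M => Hm) =
      tp (fun _ : M => Hm) * Matrix.of fun x y => if x = y + vec l then (1 : ℂ) else 0 := by
    ext ξ y
    rw [diagonal_mul, Matrix.mul_apply]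
    simp only [Matrix.of_apply, mul_ite, mul_one, mul_zero, sum_ite_eq', mem_univ, if_true,
      tp_apply, Hm, form_eq l ξ, sgn_sum, Pi.add_apply, mul_add, sgn_add, prod_mul_distrib]
    ring
  unfold Mu
  rw [Matrix.mul_assoc, h, ← Matrix.mul_assoc, H1_left, Matrix.one_mul]

theorem Mu_wt : Mu (fun ξ : M → ZMod 2 => i4 (wt ξ)) = tp fun _ : M => Cm := by
  unfold Mu
  simp only [wt, i4_sum, ← Cm_eq]
  rw [tp_mul, tp_mul, tp_diagonal]

/-- the realisation of frames on `k` parallel copies -/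
noncomputable def phi (k : ℕ) (q : (M → ZMod 2) → ZMod 4) :
    Matrix (Fin k → M → ZMod 2) (Fin k → M → ZMod 2) ℂ :=
  tp fun _ : Fin k => Mu fun ξ => i4 (q ξ)

theorem phi_add (k : ℕ) (q q' : (M → ZMod 2) → ZMod 4) :
    phi k (q + q') = phi k q * phi k q' := by
  unfold phi
  rw [← tp_mul]
  simp only [Pi.add_apply, i4_add, Mu_mul]

theorem phi_zero (k : ℕ) : phi k (0 : (M → ZMod 2) → ZMod 4) = 1 := by
  unfold phi
  simp only [Pi.zero_apply, i4_zero, Mu_one]
  exact tp_one

theorem mc_phi_tr (k : ℕ) (l : (M → ZMod 2) →+ ZMod 2) :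
    MC (phi k fun ξ => 2 * lf (l ξ)) 0 := by
  refine MC.one.of_eq id (fun y : Fin k → M → ZMod 2 => fun t => y t + vec l) ?_ ?_
  · intro y y' h
    funext t
    exact add_right_cancel (congrFun h t)
  · intro x y
    simp only [phi, i4_two_lf, Mu_sgn, tp_apply, Matrix.of_apply, Matrix.one_apply, id,
      Fintype.prod_ite_zero, prod_const_one, funext_iff]

theorem mc_phi_step {k : ℕ} (hk : 1 ≤ k) (hM : 54 ≤ Fintype.card M) {t : ℝ} (ht : 0 ≤ t)
    (h : PC k t) (l : (M → ZMod 2) →+ ZMod 2) :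
    MC (phi k fun ξ => lf (l ξ)) (Fintype.card (Fin k → M → ZMod 2) * t) := by
  by_cases hl : vec l = 0
  · have : (fun ξ => lf (l ξ)) = 0 := by
      funext ξ; simp [form_eq l ξ, hl, lf_zero]
    rw [this, phi_zero]
    exact MC.one.mono (by positivity)
  obtain ⟨i₀, hi₀⟩ := Function.ne_iff.mp hl
  have hi : vec l i₀ = 1 := (zmod2_cases _).resolve_left hi₀
  have hc : Fintype.card {i // i ≠ i₀} = Fintype.card M - 1 := by
    simp [Fintype.card_subtype_compl]
  have hB : Fintype.card (Fin k → {i // i ≠ i₀} → ZMod 2) = 2 ^ ((Fintype.card M - 1) * k) := by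
    simp [hc, pow_mul]
  have h1 := h (Fin k) (Fin k → {i // i ≠ i₀} → ZMod 2) (by simp) (by
    rw [hB]; exact pow_dvd_pow 2 (by nlinarith [Nat.sub_add_cancel (by omega : 1 ≤ Fintype.card M)]))
  let ψ : (M → ZMod 2) → ({i // i ≠ i₀} → ZMod 2) := fun x i => x i + x i₀ * vec l i
  have hψ : ∀ x y : M → ZMod 2, (x i₀ = y i₀ ∧ ψ x = ψ y ↔ x = y) := by
    intro x y
    refine ⟨fun ⟨h1, h2⟩ => funext fun i => ?_, fun h => by simp [h]⟩
    by_cases hi : i = i₀
    · rw [hi, h1]
    · have := congrFun h2 ⟨i, hi⟩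
      simpa [ψ, h1] using this
  have hψ' : ∀ x y : M → ZMod 2, (x i₀ ≠ y i₀ ∧ ψ x = ψ y ↔ x = y + vec l) := by
    intro x y
    have e : ψ (y + vec l) = ψ y := by
      funext i
      simp only [ψ, Pi.add_apply, hi, add_mul, one_mul]
      linear_combination (CharTwo.add_self_eq_zero (vec l i))
    rw [← hψ, e, Pi.add_apply, hi]
    have : ∀ a b : ZMod 2, a ≠ b ↔ a = b + 1 := by decide
    rw [this]
  refine (h1.of_eq (fun x => (fun t => x t i₀, fun t => ψ (x t)))
    (fun x => (fun t => x t i₀, fun t => ψ (x t))) ?_ ?_).mono (le_of_eq ?_)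
  · intro x y hxy
    simp only [Prod.mk.injEq] at hxy
    exact funext fun t => (hψ _ _).mp ⟨congrFun hxy.1 t, congrFun hxy.2 t⟩
  · intro x y
    have e : ∀ x y : M → ZMod 2, Mu (fun ξ => i4 (lf (l ξ))) x y =
        if ψ x = ψ y then Cm (x i₀) (y i₀) else 0 := by
      intro x y
      simp only [i4_lf, Mu_lin, Mu_sgn, Matrix.add_apply, Matrix.smul_apply, Matrix.one_apply,
        Matrix.of_apply, ← hψ x y, ← hψ' x y, Cm]
      by_cases h1 : x i₀ = y i₀ <;> by_cases h2 : ψ x = ψ y <;> simp [h1, h2]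
    simp only [phi, tp_apply, e, bd1_apply, Fintype.prod_ite_zero, funext_iff]
    split_ifs <;> rfl
  · rw [hB]
    have : Fintype.card (Fin k → M → ZMod 2) = 2 ^ ((Fintype.card M - 1) * k) * 2 ^ k := by
      rw [← pow_add]
      simp only [Fintype.card_fun, ZMod.card, Fintype.card_fin, ← pow_mul]
      congr 1
      obtain ⟨m, hm⟩ : ∃ m, Fintype.card M = m + 1 := ⟨Fintype.card M - 1, by omega⟩
      rw [hm, Nat.add_sub_cancel]; ring
    rw [this]; push_cast; ring

theorem realz_phi {k : ℕ} (hk : 1 ≤ k) (hM : 54 ≤ Fintype.card M) {t : ℝ} (ht : 0 ≤ t)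
    (h : PC k t) : Realz (phi (M := M) k) (Fintype.card (Fin k → M → ZMod 2) * t) where
  add := phi_add k
  zero := phi_zero k
  cost r q hq := by
    induction hq with
    | zero => rw [phi_zero]; simpa using MC.one
    | step l _ ih =>
      rw [phi_add]
      exact ((mc_phi_step hk hM ht h l).mul ih).mono (le_of_eq (by push_cast; ring))
    | tr l _ ih =>
      rw [phi_add]
      exact ((mc_phi_tr k l).mul ih).mono (le_of_eq (by ring))

end

end Crest.Agent.R324
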