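import Crest.Agent.R324.Gadget

set_option autoImplicit false

namespace Crest.Agent.R324

open Finset Matrix Crest.FourierCircuit

/-- the recursion factor -/
noncomputable def lam : ℝ := 10000 - 22912890000 / 2 ^ 53

theorem PC_rec : ∃ c₀ : ℝ, 0 ≤ c₀ ∧ ∀ (k : ℕ) (t : ℝ), 1 ≤ k → 0 ≤ t → PC k t →
    PC (10000 * k) (lam * t + c₀) := by
  obtain ⟨I, _, _, hI⟩ : ∃ (I : Type) (_ : Fintype I) (_ : DecidableEq I), Fintype.card I = 100 :=
    ⟨Fin 100, inferInstance, inferInstance, by simp⟩
  have hv : Fintype.card (Tr I) = 161700 := by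
    have : Fintype.card (Tr I) = (Fintype.card I).choose 3 := Fintype.card_finset_len 3
    rw [this, hI, Nat.choose_eq_descFactorial_div_factorial]
    norm_num [Nat.descFactorial, Nat.factorial]
  have hZ : Fintype.card (Zp I) ≤ 161700 * 161700 := by
    have : Fintype.card (Zp I) ≤ Fintype.card (Tr I × Tr I) := Fintype.card_subtype_le _
    rwa [Fintype.card_prod, hv] at this
  obtain ⟨d, hd⟩ : ∃ d, 2 * (161700 * 161700) + 2 * (161700 * Fintype.card (Zp I)) + d = Wb :=
    Nat.exists_eq_add_of_le (by unfold Wb; omega) |>.imp fun _ h => h.symm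
  have hW : Fintype.card (Wr I (Fin d)) = Wb := by
    simp only [Fintype.card_sum, Fintype.card_prod, hv, Fintype.card_fin]
    omega
  refine ⟨gadK I / Wb, by unfold gadK stageK; positivity, fun k t hk ht h => ?_⟩
  intro J B _ _ _ _ hJ hB
  obtain ⟨b, hb⟩ := hB
  obtain ⟨eJ⟩ : Nonempty (Fin k × (I × I) ≃ J) :=
    Fintype.card_eq.mp (by simp [hJ, hI, mul_comm])
  obtain ⟨eB⟩ : Nonempty (B ≃ Wr I (Fin d) × Fin b) :=
    Fintype.card_eq.mp (by rw [Fintype.card_prod, hW, hb, Fintype.card_fin])
  have g := gadget hI (realz_phi (M := I × I) hk (by simp [hI]) ht h) (Fin d)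
  have hX : Fintype.card (Fin k → I × I → ZMod 2) = 2 ^ (10000 * k) := by
    simp [hI, ← pow_mul]
  refine ((MC.bd (B := Fin b) fun _ => g).of_eq
    (fun x => ((fun s i => x.1 (eJ (s, i)), (eB x.2).1), (eB x.2).2))
    (fun x => ((fun s i => x.1 (eJ (s, i)), (eB x.2).1), (eB x.2).2)) ?_ ?_).mono (le_of_eq ?_)
  · intro x y hxy
    simp only [Prod.mk.injEq] at hxy
    refine Prod.ext (funext fun j => ?_) (eB.injective (Prod.ext hxy.1.2 hxy.2))
    obtain ⟨⟨s, i⟩, rfl⟩ := eJ.surjective j
    exact congrFun (congrFun hxy.1.1 s) i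
  · intro x y
    simp only [blockDiagonal_apply, phi, Mu_wt, tp_apply]
    rw [← eJ.prod_comp, Fintype.prod_prod_type, ← ite_and]
    congr 1
    rw [← eB.injective.eq_iff, Prod.ext_iff, and_comm]
  · rw [hW, hv, hX, hb, lam, Wb, Fintype.card_fin]
    push_cast
    field_simp
    ring

theorem theta_nonneg : 0 ≤ savingExponent :=
  Real.logb_nonneg (by norm_num) (by norm_num)

theorem theta_le_one : savingExponent ≤ 1 := by
  unfold savingExponent
  rw [Real.logb_le_iff_le_rpow (by norm_num) (by norm_num)]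
  norm_num

theorem lam_le : lam ≤ (10000 : ℝ) ^ savingExponent := by
  have h1 : ((10 : ℝ) ^ 6) ^ savingExponent = 10 ^ 6 - 6871402692000000 / 2 ^ 71 :=
    Real.rpow_logb (by norm_num) (by norm_num) (by norm_num)
  have h2 : ((10000 : ℝ) ^ savingExponent) ^ 3 = (((10 : ℝ) ^ 6) ^ savingExponent) ^ 2 := by
    rw [← Real.rpow_natCast, ← Real.rpow_natCast, ← Real.rpow_mul (by norm_num),
      ← Real.rpow_mul (by norm_num), mul_comm, mul_comm savingExponent,
      Real.rpow_mul (by norm_num), Real.rpow_mul (by norm_num)]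
    norm_num
  rw [← pow_le_pow_iff_left₀ (n := 3) (by unfold lam; norm_num) (by positivity) (by norm_num), h2,
    h1, lam]
  norm_num

theorem PC_pow : ∃ A : ℝ, 0 ≤ A ∧ ∀ k : ℕ, 1 ≤ k → PC k (A * (k : ℝ) ^ savingExponent) := by
  obtain ⟨c₀, hc, hrec⟩ := PC_rec
  have hθ := theta_nonneg
  have hlam : 2 ≤ lam := by unfold lam; norm_num
  refine ⟨c₀ + 80000, by positivity, fun k hk => ?_⟩
  have key : ∀ k : ℕ, 1 ≤ k →
      PC k ((c₀ + 80000) * (k : ℝ) ^ savingExponent - (c₀ + 40000)) := by
    intro k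
    induction k using Nat.strong_induction_on with
    | _ k ih =>
      intro hk
      have h1 : ∀ k : ℕ, 1 ≤ k → (1 : ℝ) ≤ (k : ℝ) ^ savingExponent := fun k hk =>
        Real.one_le_rpow (by exact_mod_cast hk) hθ
      by_cases hk2 : k < 10000
      · refine (PC.lin k).mono ?_
        have : (k : ℝ) ≤ 10000 := by exact_mod_cast hk2.le
        nlinarith [h1 k hk]
      · have hq : 1 ≤ k / 10000 := by omega
        have h2 := (hrec _ _ hq (by nlinarith [h1 _ hq]) (ih (k / 10000) (by omega) hq)).add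
          (PC.lin (k % 10000))
        rw [Nat.div_add_mod] at h2
        refine h2.mono ?_
        have h3 : ((k % 10000 : ℕ) : ℝ) ≤ 10000 := by
          exact_mod_cast (Nat.mod_lt k (by norm_num)).le
        have h4 : lam * ((k / 10000 : ℕ) : ℝ) ^ savingExponent ≤ (k : ℝ) ^ savingExponent := by
          calc _ ≤ (10000 : ℝ) ^ savingExponent * ((k / 10000 : ℕ) : ℝ) ^ savingExponent :=
                mul_le_mul_of_nonneg_right lam_le (by positivity)
            _ = ((10000 : ℝ) * ((k / 10000 : ℕ) : ℝ)) ^ savingExponent :=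
                (Real.mul_rpow (by norm_num) (by positivity)).symm
            _ ≤ _ := by
                refine Real.rpow_le_rpow (by positivity) ?_ hθ
                exact_mod_cast Nat.mul_div_le k 10000
        nlinarith
  exact (key k hk).mono (by linarith)

end Crest.Agent.R324
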