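import Crest.Agent.R324.FT

set_option autoImplicit false

namespace Crest.Agent.R324

open Finset Matrix Complex
open scoped Real

theorem lay_F_shear {ι : Type} [Fintype ι] [DecidableEq ι] {d t : ℕ} [NeZero d]
    (hd : 2 * d ≤ 2 ^ t) {x y : ZMod d → ι} {z : ZMod (2 ^ t) → ι} (hx : Function.Injective x)
    (hy : Function.Injective y) (hz : Function.Injective z) (hxy : ∀ k k', x k ≠ y k')
    (hxz : ∀ k k', x k ≠ z k') (hzy : ∀ k k', z k ≠ y k') (c : ℂ) :
    Lay (32 * t + 8) (1 + Em y * (c • F d) * (Em x)ᵀ) := by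
  obtain ⟨M, hM, hM'⟩ := (isFT_F (2 ^ t)).inv
  obtain ⟨dd, l, hl⟩ := bluestein (isFT_F (2 ^ t)) hM' (n := d) (Int.castAddHom (ZMod (2 ^ t)))
    (fun a ha h2 => by
      rw [Int.coe_castAddHom, ZMod.intCast_zmod_eq_zero_iff_dvd] at ha
      refine Int.eq_zero_of_abs_lt_dvd ha (lt_of_lt_of_le h2 ?_)
      exact_mod_cast hd)
  have hF := lay_F_pow t (2 ^ t) rfl
  let π' : ZMod d → ZMod (2 ^ t) := fun a => (a.val : ZMod (2 ^ t))
  have hπ : Function.Injective π' := by
    intro a b h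
    have h1 := ZMod.val_lt a
    have h2 := ZMod.val_lt b
    simp only [π', ZMod.natCast_eq_natCast_iff'] at h
    rw [Nat.mod_eq_of_lt (by omega), Nat.mod_eq_of_lt (by omega)] at h
    exact ZMod.val_injective _ h
  have hU : ∀ μ : ZMod (2 ^ t) → ℂ, Lay (4 * t) (M * F (2 ^ t) * diagonal μ * F (2 ^ t)) := by
    intro μ
    refine (((hF.mon_mul hM).mul (hF.mon_mul (isMon_diagonal μ))).mono (by omega)).congr ?_
    simp only [Matrix.mul_assoc]
  have key : ∀ μ : ZMod (2 ^ t) → ℂ, (∀ ξ, μ ξ ≠ 0) → Lay (4 * (4 * t) + 4)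
      (1 + Em y * (diagonal (fun a : ZMod d => c * dd a.val) *
        (M * F (2 ^ t) * diagonal μ * F (2 ^ t)).submatrix π' π' *
        diagonal (fun a : ZMod d => dd a.val)) * (Em x)ᵀ) := by
    intro μ hμ
    refine lay_shear_sub hx hy hz hxy hxz hzy hπ (hU μ) (hU fun ξ => (μ ξ)⁻¹) ?_ _ _
    have h1 := mul_eq_one_comm.mp hM'
    calc _ = M * F (2 ^ t) * diagonal (fun ξ => (μ ξ)⁻¹) * (F (2 ^ t) * (M * F (2 ^ t))) *
          diagonal μ * F (2 ^ t) := by simp only [Matrix.mul_assoc]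
      _ = M * F (2 ^ t) * (diagonal (fun ξ => (μ ξ)⁻¹) * diagonal μ) * F (2 ^ t) := by
          rw [h1]; simp only [Matrix.mul_assoc, Matrix.mul_one]
      _ = 1 := by
          rw [diagonal_mul_diagonal]
          simp only [inv_mul_cancel₀ (hμ _), diagonal_one, Matrix.mul_one, hM']
  have k1 := key (fun ξ => if l ξ = 0 then 1 else 2 * l ξ)
    (fun ξ => by split_ifs with h <;> simp [h])
  have k2 := key (fun ξ => if l ξ = 0 then -1 else - l ξ)
    (fun ξ => by split_ifs with h <;> simp [h])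
  refine ((k1.mul k2).mono (by omega)).congr ?_
  have e : ∀ A B : Matrix (ZMod d) (ZMod d) ℂ, (1 + Em y * A * (Em x)ᵀ) * (1 + Em y * B * (Em x)ᵀ) =
      1 + Em y * (A + B) * (Em x)ᵀ := by
    intro A B
    have : Em y * A * (Em x)ᵀ * (Em y * B * (Em x)ᵀ) = 0 := by
      rw [Matrix.mul_assoc _ (Em x)ᵀ, Matrix.mul_assoc (Em y) B, ← Matrix.mul_assoc (Em x)ᵀ,
        Em_disj hxy]; simp
    rw [add_mul, mul_add, mul_add, this]
    simp only [one_mul, mul_one, Matrix.mul_add, Matrix.add_mul]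
    abel
  rw [e]
  congr 3
  have hsum : diagonal (fun ξ => if l ξ = 0 then 1 else 2 * l ξ) +
      diagonal (fun ξ => if l ξ = 0 then -1 else - l ξ) = diagonal l := by
    rw [diagonal_add]
    congr 1
    funext ξ
    split_ifs with h
    · simp [h]
    · ring
  have hsub : ∀ A B : Matrix (ZMod (2 ^ t)) (ZMod (2 ^ t)) ℂ,
      A.submatrix π' π' + B.submatrix π' π' = (A + B).submatrix π' π' := fun _ _ => rfl
  rw [← Matrix.add_mul, ← Matrix.mul_add, hsub, ← Matrix.add_mul,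
    ← Matrix.mul_add, hsum]
  ext a b
  rw [mul_diagonal, diagonal_mul, Matrix.smul_apply, F_val, hl _ _ (ZMod.val_lt a) (ZMod.val_lt b)]
  simp only [smul_eq_mul, submatrix_apply, π', Int.coe_castAddHom, Int.cast_natCast]
  ring

theorem lay_F_pair {ι : Type} [Fintype ι] [DecidableEq ι] {d t : ℕ} [NeZero d]
    (hd : 2 * d ≤ 2 ^ t) {E : ZMod d × ZMod 2 → ι} {z : ZMod (2 ^ t) → ι}
    (hE : Function.Injective E) (hz : Function.Injective z) (hEz : ∀ k k', E k ≠ z k') :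
    Lay (96 * t + 24) (emb E (bd1 (ZMod 2) (F d))) := by
  let x : ZMod d → ZMod d × ZMod 2 := fun a => (a, 0)
  let y : ZMod d → ZMod d × ZMod 2 := fun a => (a, 1)
  have hx : Function.Injective x := fun a b h => congrArg Prod.fst h
  have hy : Function.Injective y := fun a b h => congrArg Prod.fst h
  have hxy : ∀ k k', x k ≠ y k' := fun a b h => zero_ne_one (congrArg Prod.snd h)
  have s1 := lay_F_shear hd (hE.comp hx) (hE.comp hy) hz (fun k k' h => hxy _ _ (hE h))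
    (fun k k' => hEz _ _) (fun k k' => (hEz _ _).symm) 1
  have s2 := lay_F_shear hd (hE.comp hy) (hE.comp (hx.comp neg_injective)) hz
    (fun k k' h => hxy _ _ (hE h).symm)
    (fun k k' => hEz _ _) (fun k k' => (hEz _ _).symm) (-(d : ℂ)⁻¹)
  rw [← emb_shear] at s1 s2
  rw [one_smul] at s1
  have hm : IsMon (diagonal (fun i : ZMod d × ZMod 2 => if i.2 = 0 then 1 else -(d : ℂ)) *
      (Em (fun i : ZMod d × ZMod 2 => if i.2 = 0 then y i.1 else x (-i.1)))ᵀ) :=
    (isMon_diagonal _).mul (isMon_Em_t _)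
  refine ((((s1.mul s2).mul s1).mon_mul (hm.emb hE)).mono (by omega)).congr ?_
  rw [← emb_mul hE, ← emb_mul hE, ← emb_mul hE]
  congr 1
  obtain ⟨B, hB⟩ : ∃ B, B = ((d : ℂ)⁻¹ • (Em (Neg.neg : ZMod d → ZMod d))ᵀ) * F d := ⟨_, rfl⟩
  have hBA : B * F d = 1 := hB ▸ F_inv d
  have hAB := mul_eq_one_comm.mp hBA
  have hB2 : Em (x ∘ Neg.neg) * (-(d : ℂ)⁻¹ • F d) = -(Em x * B) := by
    have : Em (Neg.neg : ZMod d → ZMod d) = (Em (Neg.neg : ZMod d → ZMod d))ᵀ := by
      ext a b; simp only [Em, Matrix.of_apply, transpose_apply, eq_neg_iff_add_eq_zero, add_comm]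
    rw [hB, ← Em_comp, ← this]
    simp [Matrix.mul_assoc]
  have hXY : Em x * (Em x)ᵀ + Em y * (Em y)ᵀ = 1 := by
    ext ⟨a, s⟩ ⟨b, s'⟩
    rcases zmod2_cases s with rfl | rfl <;> rcases zmod2_cases s' with rfl | rfl <;>
      simp [Matrix.mul_apply, Em, x, y, Matrix.one_apply, eq_comm]
  have hJ : (1 + Em y * F d * (Em x)ᵀ) * (1 + -(Em x * B) * (Em y)ᵀ) * (1 + Em y * F d * (Em x)ᵀ) =
      Em y * F d * (Em x)ᵀ - Em x * B * (Em y)ᵀ := by
    have r1 : ∀ Z : Matrix (ZMod d) (ZMod d × ZMod 2) ℂ, (Em x)ᵀ * (Em x * Z) = Z := fun Z => by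
      rw [← Matrix.mul_assoc, Em_self hx, Matrix.one_mul]
    have r2 : ∀ Z : Matrix (ZMod d) (ZMod d × ZMod 2) ℂ, (Em y)ᵀ * (Em y * Z) = Z := fun Z => by
      rw [← Matrix.mul_assoc, Em_self hy, Matrix.one_mul]
    have r3 : ∀ Z : Matrix (ZMod d) (ZMod d × ZMod 2) ℂ, (Em x)ᵀ * (Em y * Z) = 0 := fun Z => by
      rw [← Matrix.mul_assoc, Em_disj hxy, Matrix.zero_mul]
    have r4 : ∀ Z : Matrix (ZMod d) (ZMod d × ZMod 2) ℂ, B * (F d * Z) = Z := fun Z => by
      rw [← Matrix.mul_assoc, hBA, Matrix.one_mul]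
    have r5 : ∀ Z : Matrix (ZMod d) (ZMod d × ZMod 2) ℂ, F d * (B * Z) = Z := fun Z => by
      rw [← Matrix.mul_assoc, hAB, Matrix.one_mul]
    simp only [Matrix.mul_add, Matrix.add_mul, Matrix.mul_assoc, Matrix.one_mul, Matrix.mul_one,
      Matrix.neg_mul, Matrix.mul_neg, r1, r2, r3, r4, r5, Matrix.mul_zero]
    rw [← hXY]
    abel
  rw [hB2, hJ, Matrix.mul_assoc, Em_t_mul]
  have hd0 : (d : ℂ) ≠ 0 := Nat.cast_ne_zero.mpr (NeZero.ne d)
  have hBe : ∀ a b, B (-a) b = (d : ℂ)⁻¹ * F d a b := by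
    intro a b
    rw [hB, Matrix.smul_mul, Em_t_mul]
    simp
  ext ⟨a, s⟩ ⟨b, s'⟩
  rw [diagonal_mul, submatrix_apply, Matrix.sub_apply, bd1_apply]
  rcases zmod2_cases s with rfl | rfl <;> rcases zmod2_cases s' with rfl | rfl <;>
    simp only [if_true, one_ne_zero, zero_ne_one, if_false, id]
  · rw [show ((b, 0) : ZMod d × ZMod 2) = x b from rfl, sw_apply hy hx,
      sw_row _ _ fun k => (hxy _ _).symm]
    ring
  · rw [show ((b, 1) : ZMod d × ZMod 2) = y b from rfl, sw_col _ _ _ fun k => (hxy _ _).symm,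
      sw_row _ _ fun k => (hxy _ _).symm]
    ring
  · rw [show ((b, 0) : ZMod d × ZMod 2) = x b from rfl, sw_row _ _ fun k => hxy _ _,
      sw_col _ _ _ fun k => hxy _ _]
    ring
  · rw [show ((b, 1) : ZMod d × ZMod 2) = y b from rfl, sw_row _ _ fun k => hxy _ _,
      sw_apply hx hy, hBe]
    field_simp
    ring

theorem lay_F_six {d t : ℕ} [NeZero d] (hd : 2 * d ≤ 2 ^ t) (hd' : 2 ^ t ≤ 4 * d) :
    Lay (288 * t + 72) (bd1 (ZMod 2 × Fin 3) (F d)) := by
  have key : ∀ p : Fin 3, Lay (96 * t + 24)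
      (blockDiagonal fun γ : ZMod 2 × Fin 3 => if γ.2 = p then F d else 1) := by
    intro p
    obtain ⟨z⟩ : Nonempty (ZMod (2 ^ t) ↪ ZMod d × (ZMod 2 × {q : Fin 3 // q ≠ p})) := by
      refine Function.Embedding.nonempty_of_card_le ?_
      simp [Fintype.card_subtype_compl]
      omega
    let E : ZMod d × ZMod 2 → ZMod d × (ZMod 2 × Fin 3) := fun i => (i.1, i.2, p)
    have hE : Function.Injective E := by
      rintro ⟨a, s⟩ ⟨b, s'⟩ h
      simpa [E] using h
    refine (lay_F_pair hd hE (z := fun k => ((z k).1, (z k).2.1, (z k).2.2.1)) ?_ ?_).congr ?_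
    · intro k k' h
      simp only [Prod.mk.injEq] at h
      exact z.injective (Prod.ext h.1 (Prod.ext h.2.1 (Subtype.ext h.2.2)))
    · intro k k' h
      exact (z k').2.2.2 (congrArg (fun w => w.2.2) h).symm
    · ext ⟨a, s, q⟩ ⟨b, s', q'⟩
      by_cases hq : q = p
      · by_cases hq' : q' = p
        · subst hq hq'
          exact Eq.trans (by simp [blockDiagonal_apply]) (emb_apply hE _ (a, s) (b, s')).symm
        · rw [emb, Matrix.add_apply, sw_col _ _ _ fun k h => hq' (congrArg (fun w => w.2.2) h)]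
          simp [blockDiagonal_apply, hq, Ne.symm hq']
      · rw [emb, Matrix.add_apply, sw_row _ _ fun k h => hq (congrArg (fun w => w.2.2) h)]
        simp only [blockDiagonal_apply, hq, if_false, Matrix.one_apply, Prod.mk.injEq, add_zero]
        by_cases h1 : a = b <;> simp [h1]
  refine ((((key 0).mul (key 1)).mul (key 2)).mono (by omega)).congr ?_
  rw [← blockDiagonal_mul, ← blockDiagonal_mul]
  refine congrArg blockDiagonal ?_
  funext ⟨s, q⟩
  fin_cases q <;> simp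

end Crest.Agent.R324
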