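import Crest.Agent.R324.Tp
import Crest.Agent.R324.Frames

set_option autoImplicit false

namespace Crest.Agent.R324

open Finset Matrix

/-- a realisation of frames by matrices, a rank-one change of frame costing `c` gates -/
structure Realz {Ξ X : Type} [AddCommGroup Ξ] [Fintype X] [DecidableEq X]
    (φ : (Ξ → ZMod 4) → Matrix X X ℂ) (c : ℝ) : Prop where
  add : ∀ q q', φ (q + q') = φ q * φ q'
  zero : φ 0 = 1
  cost : ∀ r q, D r q → MC (φ q) (r * c)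

variable {Ξ X : Type} [AddCommGroup Ξ] [Fintype X] [DecidableEq X]
  {φ : (Ξ → ZMod 4) → Matrix X X ℂ} {c : ℝ} {U : Type} [AddCommGroup U] [Module ℂ U]

variable (φ) in
/-- the vector `v` is available in the frame `q` -/
def Has (S : Set U) (q : Ξ → ZMod 4) (v : X → U) : Prop := ∀ t, act (φ q) v t ∈ S

/-- computed extension -/
def Up (S : Set U) (s : ℝ) (S' : Set U) : Prop := Comp S s S' ∧ S ⊆ S'

theorem Up.trans {S S' S'' : Set U} {s t : ℝ} (h : Up S s S') (h' : Up S' t S'') :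
    Up S (s + t) S'' := ⟨h.1.trans h'.1, h.2.trans h'.2⟩

theorem Up.mono {S S' : Set U} {s t : ℝ} (h : Up S s S') (hst : s ≤ t) : Up S t S' :=
  ⟨h.1.mono (Set.subset_insert _ _) hst subset_rfl, h.2⟩

omit [AddCommGroup Ξ] [DecidableEq X] in
theorem Has.up {S S' : Set U} {s : ℝ} {q : Ξ → ZMod 4} {v : X → U} (h : Has φ S q v)
    (e : Up S s S') : Has φ S' q v := fun t => e.2 (h t)

omit [AddCommGroup Ξ] [DecidableEq X] in
theorem Has.congr {S : Set U} {q q' : Ξ → ZMod 4} {v v' : X → U} (h : Has φ S q v)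
    (e : q' = q) (e' : v' = v) : Has φ S q' v' := by rw [e, e']; exact h

omit [AddCommGroup Ξ] [DecidableEq X] in
theorem has_zero {S : Set U} (h : 0 ∈ S) (q : Ξ → ZMod 4) : Has φ S q (0 : X → U) := by
  intro t
  simpa [act] using h

theorem Realz.move (hφ : Realz φ c) {ι : Type} [Fintype ι] {S : Set U} {f : ι → Ξ → ZMod 4}
    (g : ι → Ξ → ZMod 4) {v : ι → X → U} {r : ℕ} (h : ∀ i, Has φ S (f i) (v i))
    (hd : ∀ i, D r (g i - f i)) :
    ∃ S', Up S (Fintype.card ι * (r * c)) S' ∧ ∀ i, Has φ S' (g i) (v i) := by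
  refine ⟨S ∪ ⋃ i, Set.range (act (φ (g i)) (v i)), ⟨Comp.grow (Comp.iUnion fun i => ?_),
    Set.subset_union_left⟩, fun i t => Or.inr (Set.mem_iUnion.mpr ⟨i, t, rfl⟩)⟩
  have e : φ (g i) = φ (g i - f i) * φ (f i) := by rw [← hφ.add, sub_add_cancel]
  rw [e, act_mul]
  refine (hφ.cost r _ (hd i) U _).mono ?_ le_rfl subset_rfl
  rintro _ ⟨t, rfl⟩
  exact Set.mem_insert_of_mem _ (h i t)

omit [AddCommGroup Ξ] [DecidableEq X] in
theorem lin {ι κ : Type} [Fintype ι] [Fintype κ] {S : Set U} {f : ι → Ξ → ZMod 4}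
    {v : ι → X → U} (w : ι → κ → X → U) (cf : ι → κ → ℂ) (h : ∀ i, Has φ S (f i) (v i))
    (hw : ∀ i j, cf i j ≠ 0 → Has φ S (f i) (w i j)) :
    ∃ S', Up S (Fintype.card ι * (Fintype.card X * (2 * Fintype.card κ + 1))) S' ∧
      ∀ i, Has φ S' (f i) (v i + ∑ j, cf i j • w i j) := by
  refine ⟨S ∪ ⋃ i, Set.range (act (φ (f i)) (v i + ∑ j, cf i j • w i j)),
    ⟨Comp.grow (Comp.iUnion fun i => Comp.range fun t => ?_),
    Set.subset_union_left⟩, fun i t => Or.inr (Set.mem_iUnion.mpr ⟨i, t, rfl⟩)⟩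
  have e : act (φ (f i)) (v i + ∑ j, cf i j • w i j) t =
      act (φ (f i)) (v i) t + ∑ j, cf i j • act (φ (f i)) (w i j) t := by
    change actL (φ (f i)) (v i + ∑ j, cf i j • w i j) t = _
    rw [map_add, map_sum, Pi.add_apply, Finset.sum_apply]
    simp only [map_smul, Pi.smul_apply]
    rfl
  rw [e]
  exact (Comp.sum univ (cf i) (fun j => act (φ (f i)) (w i j) t)
    fun j _ hj => hw i j hj t).grow.trans (Comp.add (Or.inl (h i t)) (Or.inr rfl))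

omit [AddCommGroup Ξ] [DecidableEq X] in
theorem lin1 {ι : Type} [Fintype ι] {S : Set U} {f : ι → Ξ → ZMod 4}
    {v w : ι → X → U} (a : ℂ) (h : ∀ i, Has φ S (f i) (v i)) (hw : ∀ i, Has φ S (f i) (w i)) :
    ∃ S', Up S (Fintype.card ι * (Fintype.card X * 3)) S' ∧
      ∀ i, Has φ S' (f i) (v i + a • w i) := by
  obtain ⟨S', e, h'⟩ := lin (κ := Unit) (fun i _ => w i) (fun _ _ => a) h (fun i _ _ => hw i)
  exact ⟨S', e.mono (by simp; norm_num), fun i => by simpa using h' i⟩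

section stage
variable {Γ T Z Jw : Type} [Fintype Γ] [Fintype T] [Fintype Z] [Fintype Jw]

variable (Γ T Z Jw) in
/-- number of additions per entry in one stage -/
noncomputable def stageK : ℝ := Fintype.card Γ * (2 * (Fintype.card T * (2 * Fintype.card Z + 1)) +
  2 * (Fintype.card Z * 3) + Fintype.card Jw * (2 * Fintype.card T + 1) +
  Fintype.card T * (2 * Fintype.card Jw + 1))

variable (Γ T Z Jw) in
/-- number of rank-one changes of frame in one stage -/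
noncomputable def stageM (h h1 h2 : ℕ) : ℝ := Fintype.card Γ *
  (Fintype.card Z * (2 + h2) + Fintype.card T * (2 * h1) + Fintype.card Jw * h)

theorem Realz.fwd (hφ : Realz φ c) (za zb : Z → T) (e : T → Z → ℂ) (Jc : T → Jw → ℂ)
    (Vc : Jw → T → ℂ) (he : ∀ b ζ, e b ζ ≠ 0 → zb ζ = b)
    (hid : ∀ (x : T → X → U) b, ∑ ζ, e b ζ • x (za ζ) + ∑ j, Jc b j • ∑ a, Vc j a • x a = x b)
    (β I : Γ → Ξ → ZMod 4) (s : Γ → T → Ξ → ZMod 4) {h h1 h2 : ℕ}
    (hs : ∀ γ a, D 1 (s γ a)) (hI : ∀ γ, D h (I γ)) (hI1 : ∀ γ a, D h1 (I γ - s γ a))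
    (hI2 : ∀ γ ζ, D h2 (I γ - s γ (za ζ) - s γ (zb ζ)))
    {S : Set U} (h0 : 0 ∈ S) {x y : Γ → T → X → U} {z : Γ → Z → X → U}
    (hx : ∀ γ a, Has φ S (β γ + s γ a) (x γ a)) (hy : ∀ γ a, Has φ S (β γ) (y γ a))
    (hz : ∀ γ ζ, Has φ S (β γ) (z γ ζ)) :
    ∃ S', Up S (stageM Γ T Z Jw h h1 h2 * c + stageK Γ T Z Jw * Fintype.card X) S' ∧
      (∀ γ a, Has φ S' (β γ + I γ) (x γ a)) ∧
      (∀ γ a, Has φ S' (β γ + I γ - s γ a) (y γ a + x γ a)) ∧
      (∀ γ ζ, Has φ S' (β γ + I γ) (z γ ζ)) := by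
  obtain ⟨S1, e1, k1⟩ := lin (ι := Γ × T) (f := fun i => β i.1) (fun i ζ => z i.1 ζ)
    (fun i ζ => - e i.2 ζ) (fun i => hy i.1 i.2) (fun i ζ _ => hz i.1 ζ)
  obtain ⟨S2, e2, k2⟩ := hφ.move (ι := Γ × Z) (fun i => β i.1 + s i.1 (za i.2)) (r := 1)
    (fun i => (hz i.1 i.2).up e1) (fun i => by simpa using hs _ _)
  obtain ⟨S3, e3, k3⟩ := lin1 1 k2 (fun i => ((hx i.1 (za i.2)).up e1).up e2)
  obtain ⟨S4, e4, k4⟩ := hφ.move (ι := Γ × T) (fun i => β i.1 + I i.1) (r := h1)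
    (fun i => (((hx i.1 i.2).up e1).up e2).up e3) (fun i => by simpa using hI1 _ _)
  obtain ⟨S5, e5, k5⟩ := lin (ι := Γ × Jw) (f := fun i => β i.1 + I i.1) (fun i a => x i.1 a)
    (fun i a => Vc i.2 a) (fun i => has_zero (e4.2 (e3.2 (e2.2 (e1.2 h0)))) _)
    (fun i a _ => k4 (i.1, a))
  obtain ⟨S6, e6, k6⟩ := hφ.move (fun i => β i.1) (r := h) k5 (fun i => by simpa using (hI _).neg)
  obtain ⟨S7, e7, k7⟩ := lin (ι := Γ × T) (fun i j => 0 + ∑ a, Vc j a • x i.1 a)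
    (fun i j => Jc i.2 j) (fun i => (((((k1 i).up e2).up e3).up e4).up e5).up e6)
    (fun i j _ => k6 (i.1, j))
  obtain ⟨S8, e8, k8⟩ := hφ.move (fun i => β i.1 + I i.1 - s i.1 i.2) (r := h1) k7
    (fun i => (hI1 i.1 i.2).congr fun ξ => by simp only [Pi.add_apply, Pi.sub_apply]; ring)
  obtain ⟨S9, e9, k9⟩ := hφ.move (fun i => β i.1 + I i.1 - s i.1 (zb i.2)) (r := h2)
    (fun i => (((((k3 i).up e4).up e5).up e6).up e7).up e8)
    (fun i => (hI2 i.1 i.2).congr fun ξ => by simp only [Pi.add_apply, Pi.sub_apply]; ring)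
  obtain ⟨S10, e10, k10⟩ := lin (ι := Γ × T) (fun i ζ => z i.1 ζ + (1 : ℂ) • x i.1 (za ζ))
    (fun i ζ => e i.2 ζ) (fun i => (k8 i).up e9)
    (fun i ζ hζ => (k9 (i.1, ζ)).congr (by simp only [he _ _ hζ]) rfl)
  obtain ⟨S11, e11, k11⟩ := hφ.move (fun i => β i.1 + I i.1) (r := 1)
    (fun i => (k9 i).up e10) (fun i => by simpa using hs _ _)
  obtain ⟨S12, e12, k12⟩ := lin1 (-1) k11
    (fun i => (((((((k4 (i.1, za i.2)).up e5).up e6).up e7).up e8).up e9).up e10).up e11)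
  refine ⟨S12, (((((((((((e1.trans e2).trans e3).trans e4).trans e5).trans e6).trans e7).trans
    e8).trans e9).trans e10).trans e11).trans e12).mono (le_of_eq ?_), fun γ a => ?_,
    fun γ a => ?_, fun γ ζ => ?_⟩
  · simp only [stageM, stageK, Fintype.card_prod]; push_cast; ring
  · exact ((((((((k4 (γ, a)).up e5).up e6).up e7).up e8).up e9).up e10).up e11).up e12
  · refine (((k10 (γ, a)).up e11).up e12).congr rfl ?_
    conv_lhs => rw [← hid (x γ) a]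
    simp only [neg_smul, sum_neg_distrib, zero_add, one_smul, smul_add, sum_add_distrib]
    abel
  · exact (k12 (γ, ζ)).congr rfl (by simp)

theorem Realz.rev (hφ : Realz φ c) (za zb : Z → T) (e : T → Z → ℂ) (Jc : T → Jw → ℂ)
    (Vc : Jw → T → ℂ) (he : ∀ b ζ, e b ζ ≠ 0 → zb ζ = b)
    (hid : ∀ (x : T → X → U) b, ∑ ζ, e b ζ • x (za ζ) + ∑ j, Jc b j • ∑ a, Vc j a • x a = x b)
    (β I : Γ → Ξ → ZMod 4) (s : Γ → T → Ξ → ZMod 4) {h h1 h2 : ℕ}
    (hs : ∀ γ a, D 1 (s γ a)) (hI : ∀ γ, D h (I γ)) (hI1 : ∀ γ a, D h1 (I γ - s γ a))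
    (hI2 : ∀ γ ζ, D h2 (I γ - s γ (za ζ) - s γ (zb ζ)))
    {S : Set U} (h0 : 0 ∈ S) {x y : Γ → T → X → U} {z : Γ → Z → X → U}
    (hx : ∀ γ a, Has φ S (β γ + s γ a) (x γ a)) (hy : ∀ γ a, Has φ S (β γ) (y γ a))
    (hz : ∀ γ ζ, Has φ S (β γ) (z γ ζ)) :
    ∃ S', Up S (stageM Γ T Z Jw h h1 h2 * c + stageK Γ T Z Jw * Fintype.card X) S' ∧
      (∀ γ a, Has φ S' (β γ + I γ) (x γ a - y γ a)) ∧
      (∀ γ a, Has φ S' (β γ + I γ - s γ a) (y γ a)) ∧
      (∀ γ ζ, Has φ S' (β γ + I γ) (z γ ζ)) := by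
  obtain ⟨S1, e1, k1⟩ := lin1 (ι := Γ × Z) (f := fun i => β i.1) 1 (fun i => hz i.1 i.2)
    (fun i => hy i.1 (za i.2))
  obtain ⟨S2, e2, k2⟩ := lin (ι := Γ × Jw) (f := fun i => β i.1) (fun i a => y i.1 a)
    (fun i a => Vc i.2 a) (fun i => has_zero (e1.2 h0) _) (fun i a _ => (hy i.1 a).up e1)
  obtain ⟨S3, e3, k3⟩ := hφ.move (fun i => β i.1 + s i.1 (zb i.2)) (r := 1)
    (fun i => (k1 i).up e2) (fun i => by simpa using hs _ _)
  obtain ⟨S4, e4, k4⟩ := hφ.move (fun i => β i.1 + I i.1) (r := h)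
    (fun i => (k2 i).up e3) (fun i => by simpa using hI _)
  obtain ⟨S5, e5, k5⟩ := lin (ι := Γ × T) (fun i ζ => z i.1 ζ + (1 : ℂ) • y i.1 (za ζ))
    (fun i ζ => - e i.2 ζ) (fun i => ((((hx i.1 i.2).up e1).up e2).up e3).up e4)
    (fun i ζ hζ => ((k3 (i.1, ζ)).up e4).congr
      (by simp only [he _ _ (neg_ne_zero.mp hζ)]) rfl)
  obtain ⟨S6, e6, k6⟩ := hφ.move (fun i => β i.1 + I i.1) (r := h1) k5
    (fun i => by simpa using hI1 _ _)
  obtain ⟨S7, e7, k7⟩ := hφ.move (fun i => β i.1 + I i.1 - s i.1 (za i.2)) (r := h2)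
    (fun i => (((k3 i).up e4).up e5).up e6)
    (fun i => (hI2 i.1 i.2).congr fun ξ => by simp only [Pi.add_apply, Pi.sub_apply]; ring)
  obtain ⟨S8, e8, k8⟩ := hφ.move (ι := Γ × T) (fun i => β i.1 + I i.1 - s i.1 i.2) (r := h1)
    (fun i => (((((((hy i.1 i.2).up e1).up e2).up e3).up e4).up e5).up e6).up e7)
    (fun i => (hI1 i.1 i.2).congr fun ξ => by simp only [Pi.add_apply, Pi.sub_apply]; ring)
  obtain ⟨S9, e9, k9⟩ := lin1 (-1) (fun i => (k7 i).up e8) (fun i => k8 (i.1, za i.2))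
  obtain ⟨S10, e10, k10⟩ := hφ.move (fun i => β i.1 + I i.1) (r := 1) k9
    (fun i => by simpa using hs _ _)
  obtain ⟨S11, e11, k11⟩ := lin (ι := Γ × T) (fun i j => 0 + ∑ a, Vc j a • y i.1 a)
    (fun i j => - Jc i.2 j) (fun i => ((((k6 i).up e7).up e8).up e9).up e10)
    (fun i j _ => ((((((k4 (i.1, j)).up e5).up e6).up e7).up e8).up e9).up e10)
  obtain ⟨S12, e12, k12⟩ := lin (ι := Γ × T)
    (fun i ζ => z i.1 ζ + (1 : ℂ) • y i.1 (za ζ) + (-1 : ℂ) • y i.1 (za ζ))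
    (fun i ζ => e i.2 ζ) k11 (fun i ζ _ => (k10 (i.1, ζ)).up e11)
  refine ⟨S12, (((((((((((e1.trans e2).trans e3).trans e4).trans e5).trans e6).trans e7).trans
    e8).trans e9).trans e10).trans e11).trans e12).mono (le_of_eq ?_), fun γ a => ?_,
    fun γ a => ?_, fun γ ζ => ?_⟩
  · simp only [stageM, stageK, Fintype.card_prod]; push_cast; ring
  · refine (k12 (γ, a)).congr rfl ?_
    conv_lhs => rw [← hid (y γ) a]
    simp only [neg_smul, sum_neg_distrib, zero_add, one_smul, smul_add, sum_add_distrib,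
      add_neg_cancel_right]
    abel
  · exact ((((k8 (γ, a)).up e9).up e10).up e11).up e12
  · exact (((k10 (γ, ζ)).up e11).up e12).congr rfl (by simp)

end stage

end Crest.Agent.R324
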