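import Crest.Agent.R324.Small
import Crest.Agent.R324.Recur

set_option autoImplicit false

namespace Crest.Agent.R324

open Finset Matrix Complex Crest.FourierCircuit
open scoped Real Kronecker

theorem mc_half {J B' : Type} [Fintype J] [DecidableEq J] [Fintype B'] [DecidableEq B']
    (d : J → ℕ) [∀ j, NeZero (d j)] {D : ℕ} (hD : ∀ j, d j ≤ D) {t : ℝ} (ht : 0 ≤ t)
    (h : PC (Fintype.card J) t) (hB : 6 ^ Fintype.card J ≤ 6 * Fintype.card B') :
    MC (bd1 B' (tp fun j => F (d j))) ((1 + 6 * Wb) * (Fintype.card (∀ j, ZMod (d j)) *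
      Fintype.card B') * ((288 * Nat.log 2 (4 * D) + 72 : ℕ) * (3 * t + 5) + 1)) := by
  have hL : ∀ j, Lay (288 * Nat.log 2 (4 * D) + 72) (bd1 (ZMod 2 × Fin 3) (F (d j))) := by
    intro j
    have h0 : 0 < d j := Nat.pos_of_ne_zero (NeZero.ne _)
    have h1 := Nat.pow_log_le_self 2 (show 4 * d j ≠ 0 by omega)
    have h2 := Nat.lt_pow_succ_log_self (show 1 < 2 by norm_num) (4 * d j)
    have h3 : Nat.log 2 (4 * d j) ≤ Nat.log 2 (4 * D) :=
      Nat.log_mono_right (Nat.mul_le_mul_left _ (hD j))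
    exact (lay_F_six (t := Nat.log 2 (4 * d j)) (by rw [pow_succ] at h2; omega) h1).mono
      (by omega)
  have hW : 0 < Wb * 6 ^ Fintype.card J := by unfold Wb; positivity
  obtain ⟨q, hq1, hq2⟩ : ∃ q, Fintype.card B' ≤ 6 ^ Fintype.card J * (Wb * q) ∧
      6 ^ Fintype.card J * (Wb * q) ≤ (1 + 6 * Wb) * Fintype.card B' := by
    refine ⟨Fintype.card B' / (Wb * 6 ^ Fintype.card J) + 1, ?_, ?_⟩
    · have := Nat.lt_div_mul_add hW (a := Fintype.card B')
      nlinarith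
    · have := Nat.div_mul_le_self (Fintype.card B') (Wb * 6 ^ Fintype.card J)
      nlinarith [Nat.mul_le_mul_left Wb hB]
  obtain ⟨g⟩ : Nonempty (B' ↪ (J → ZMod 2 × Fin 3) × Fin (Wb * q)) :=
    Function.Embedding.nonempty_of_card_le (by simpa using hq1)
  have h1 := mc_tensor (B := Fin (Wb * q)) (ι := fun j => ZMod (d j) × (ZMod 2 × Fin 3))
    (κ := fun j => ZMod (d j) × Fin 3)
    (fun j => Fintype.equivOfCardEq (by simp only [Fintype.card_prod]; ring)) h (by simp) _ _ hL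
  refine (h1.of_eq (fun x => (fun j => (x.1 j, (g x.2).1 j), (g x.2).2))
    (fun x => (fun j => (x.1 j, (g x.2).1 j), (g x.2).2)) ?_ ?_).mono ?_
  · intro x y hxy
    simp only [Prod.mk.injEq, funext_iff] at hxy
    exact Prod.ext (funext fun j => (hxy.1 j).1)
      (g.injective (Prod.ext (funext fun j => (hxy.1 j).2) hxy.2))
  · intro x y
    simp only [bd1_apply, tp_apply, Fintype.prod_ite_zero, ← ite_and]
    congr 1
    rw [← g.injective.eq_iff, Prod.ext_iff, funext_iff, and_comm]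
  · refine mul_le_mul_of_nonneg_right ?_ (by positivity)
    have : Fintype.card ((∀ j, ZMod (d j) × (ZMod 2 × Fin 3)) × Fin (Wb * q)) =
        Fintype.card (∀ j, ZMod (d j)) * (6 ^ Fintype.card J * (Wb * q)) := by
      simp only [Fintype.card_prod, Fintype.card_pi, ZMod.card, Fintype.card_fin,
        prod_mul_distrib, prod_const, card_univ]
      rw [← mul_pow, mul_assoc]
      rfl
    rw [this]
    have h2 := Nat.mul_le_mul_left (Fintype.card (∀ j, ZMod (d j))) hq2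
    calc ((Fintype.card (∀ j, ZMod (d j)) * (6 ^ Fintype.card J * (Wb * q)) : ℕ) : ℝ)
        ≤ ((Fintype.card (∀ j, ZMod (d j)) * ((1 + 6 * Wb) * Fintype.card B') : ℕ) : ℝ) := by
          exact_mod_cast h2
      _ = _ := by push_cast; ring

theorem pow_four_le (u : ℕ) (hu : 21 ≤ u) : 8 * u ^ 4 ≤ 2 ^ u := by
  induction u, hu using Nat.le_induction with
  | base => norm_num
  | succ u hu ih =>
    have : (u + 1) ^ 4 ≤ 2 * u ^ 4 := by
      obtain ⟨j, rfl⟩ := Nat.exists_eq_add_of_le hu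
      ring_nf
      omega
    rw [pow_succ 2]
    omega

theorem exists_moduli (X u : ℕ) (hX : 1 ≤ X) (hu : 21 ≤ u) (hXu : X ≤ 2 ^ u) :
    ∃ (J₁ J₂ : Finset ℕ) (e : ℕ → ℕ), Disjoint J₁ J₂ ∧
      (∀ p ∈ J₁ ∪ J₂, p.Prime ∧ p ≤ 2 * u ∧ p ^ e p ≤ 4 * u) ∧
      X ≤ ∏ p ∈ J₁ ∪ J₂, p ^ e p ∧ ∏ p ∈ J₁ ∪ J₂, p ^ e p ≤ 2 * X ∧
      6 ^ J₁.card ≤ 6 * ∏ p ∈ J₂, p ^ e p ∧ 6 ^ J₂.card ≤ 6 * ∏ p ∈ J₁, p ^ e p := by
  set v : ℕ → ℕ := fun p => (Nat.centralBinom u).factorization p with hv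
  have hq : ∀ p, p ^ v p ≤ 2 * u := fun p => Nat.pow_factorization_choose_le (by omega)
  set P := (Nat.centralBinom u).primeFactors.filter (fun p => 7 ≤ p) with hP
  have hPp : ∀ p ∈ P, p.Prime ∧ 7 ≤ p ∧ p ≤ p ^ v p := by
    intro p hp
    rw [hP, mem_filter] at hp
    refine ⟨Nat.prime_of_mem_primeFactors hp.1, hp.2, Nat.le_self_pow ?_ _⟩
    rw [← Nat.support_factorization, Finsupp.mem_support_iff] at hp
    exact hp.1
  have hbig : X < ∏ p ∈ P, p ^ v p := by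
    have h1 : Nat.centralBinom u = ∏ p ∈ (Nat.centralBinom u).primeFactors, p ^ v p :=
      (Nat.prod_factorization_pow_eq_self (Nat.centralBinom_ne_zero u)).symm
    rw [← prod_filter_mul_prod_filter_not _ (fun p => 7 ≤ p), ← hP] at h1
    have h2 : ∏ p ∈ (Nat.centralBinom u).primeFactors.filter (fun p => ¬ 7 ≤ p), p ^ v p ≤
        (2 * u) ^ 3 := by
      refine le_trans (prod_le_pow_card _ _ _ fun p _ => hq p) (Nat.pow_le_pow_right (by omega) ?_)
      refine le_trans (card_le_card (t := {2, 3, 5}) fun p hp => ?_) (by decide)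
      rw [mem_filter] at hp
      have h3 := Nat.prime_of_mem_primeFactors hp.1
      have h4 : p < 7 := by omega
      clear hp
      interval_cases p <;> first | decide | exact absurd h3 (by decide)
    have h3 := Nat.four_pow_lt_mul_centralBinom u (by omega)
    have h4 := pow_four_le u hu
    by_contra hc
    push Not at hc
    have h5 : Nat.centralBinom u ≤ 2 ^ u * (2 * u) ^ 3 := by
      rw [h1]; exact Nat.mul_le_mul (hc.trans hXu) h2
    have h6 : u * Nat.centralBinom u ≤ 2 ^ u * 2 ^ u := by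
      calc u * Nat.centralBinom u ≤ u * (2 ^ u * (2 * u) ^ 3) := Nat.mul_le_mul_left _ h5
        _ = 2 ^ u * (8 * u ^ 4) := by ring
        _ ≤ _ := Nat.mul_le_mul_left _ h4
    rw [← mul_pow] at h6
    norm_num at h6
    omega
  obtain ⟨S, hS, hmax⟩ := exists_max_image (P.powerset.filter fun S => ∏ p ∈ S, p ^ v p ≤ X) card
    ⟨∅, by simpa using hX⟩
  rw [mem_filter, mem_powerset] at hS
  have hS2 : X < 2 * u * ∏ p ∈ S, p ^ v p := by
    obtain ⟨p, hp, hpS⟩ := exists_of_ssubset (hS.1.ssubset_of_ne (by rintro rfl; omega))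
    by_contra hc
    have := hmax (insert p S) (by
      rw [mem_filter, mem_powerset, prod_insert hpS]
      exact ⟨insert_subset hp hS.1, le_trans (Nat.mul_le_mul_right _ (hq p)) (by omega)⟩)
    rw [card_insert_of_notMem hpS] at this
    omega
  have hS0 : 0 < ∏ p ∈ S, p ^ v p := prod_pos fun p hp => pow_pos (hPp p (hS.1 hp)).1.pos _
  obtain ⟨s, hs1, hs2⟩ : ∃ s, X ≤ 2 ^ s * ∏ p ∈ S, p ^ v p ∧ 2 ^ s * ∏ p ∈ S, p ^ v p ≤ 2 * X ∧
      2 ^ s ≤ 4 * u := by
    have hex : ∃ s, X ≤ 2 ^ s * ∏ p ∈ S, p ^ v p :=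
      ⟨X, le_trans Nat.lt_two_pow_self.le (Nat.le_mul_of_pos_right _ hS0)⟩
    refine ⟨Nat.find hex, Nat.find_spec hex, ?_⟩
    rcases h : Nat.find hex with _ | s
    · constructor <;> omega
    · have := Nat.find_min hex (m := s) (by omega)
      rw [pow_succ]
      refine ⟨by nlinarith, ?_⟩
      have : 2 ^ s < 2 * u := lt_of_mul_lt_mul_right (lt_trans (not_le.mp this) hS2) hS0.le
      omega
  obtain ⟨S₁, hS₁, hc₁⟩ := exists_subset_card_eq (s := S) (n := S.card / 2) (by omega)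
  have h2S : 2 ∉ S := fun h => by have := (hPp 2 (hS.1 h)).2.1; omega
  have he : ∀ T ⊆ S, ∏ p ∈ T, p ^ (if p = 2 then s else v p) = ∏ p ∈ T, p ^ v p :=
    fun T hT => prod_congr rfl fun p hp => by rw [if_neg (by rintro rfl; exact h2S (hT hp))]
  have h6 : ∀ T ⊆ S, 6 ^ T.card ≤ ∏ p ∈ T, p ^ v p := fun T hT =>
    pow_card_le_prod _ _ _ fun p hp => by have := hPp p (hS.1 (hT hp)); omega
  have hun : insert 2 S₁ ∪ S \ S₁ = insert 2 S := by
    rw [insert_union, union_sdiff_of_subset hS₁]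
  have hcard : (S \ S₁).card = S.card - S.card / 2 := by rw [card_sdiff_of_subset hS₁, hc₁]
  refine ⟨insert 2 S₁, S \ S₁, fun p => if p = 2 then s else v p, ?_, ?_, ?_, ?_, ?_, ?_⟩
  · rw [disjoint_insert_left]
    exact ⟨fun h => h2S (mem_sdiff.mp h).1, disjoint_sdiff⟩
  · intro p hp
    rw [hun, mem_insert] at hp
    rcases hp with rfl | hp
    · exact ⟨Nat.prime_two, by omega, by simpa using hs2.2⟩
    · have h1 := hPp p (hS.1 hp)
      have h2 := hq p
      simp only [if_neg (show p ≠ 2 by omega)]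
      exact ⟨h1.1, by omega, by omega⟩
  · rw [hun, prod_insert h2S, he S subset_rfl]; simpa using hs1
  · rw [hun, prod_insert h2S, he S subset_rfl]; simpa using hs2.1
  · rw [he _ sdiff_subset, card_insert_of_notMem (fun h => h2S (hS₁ h)), pow_succ']
    refine Nat.mul_le_mul_left _ (le_trans (Nat.pow_le_pow_right (by norm_num) ?_)
      (h6 _ sdiff_subset))
    omega
  · rw [prod_insert (fun h => h2S (hS₁ h)), he _ hS₁]
    calc 6 ^ (S \ S₁).card ≤ 6 ^ (S₁.card + 1) := Nat.pow_le_pow_right (by norm_num) (by omega)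
      _ = 6 * 6 ^ S₁.card := pow_succ' _ _
      _ ≤ _ := Nat.mul_le_mul_left _ (le_trans (h6 _ hS₁)
          (Nat.le_mul_of_pos_left _ (by positivity)))

theorem mc_dft {A : ℝ} (hA0 : 0 ≤ A) (hA : ∀ k : ℕ, 1 ≤ k → PC k (A * (k : ℝ) ^ savingExponent))
    (n u : ℕ) (hn : 1 ≤ n) (hu : 21 ≤ u) (hnu : 2 * n ≤ 2 ^ u) :
    MC (dftMatrix n) (10 * n + 16 * (1 + 6 * Wb) * n * ((288 * Nat.log 2 (16 * u) + 72 : ℕ) *
      (3 * (A * ((2 * u + 1 : ℕ) : ℝ) ^ savingExponent) + 5) + 1)) := by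
  obtain ⟨J₁, J₂, e, hdis, hp, hN1, hN2, h61, h62⟩ := exists_moduli (2 * n) u (by omega) hu hnu
  have hθ := theta_nonneg
  have hPC : ∀ J ⊆ J₁ ∪ J₂, PC (Fintype.card J) (A * ((2 * u + 1 : ℕ) : ℝ) ^ savingExponent) := by
    intro J hJ
    have h1 : J.card ≤ 2 * u + 1 := by
      rw [← card_range (2 * u + 1)]
      exact card_le_card fun p h => mem_range.mpr (Nat.lt_succ_of_le (hp p (hJ h)).2.1)
    rw [Fintype.card_coe]
    rcases Nat.eq_zero_or_pos J.card with h | h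
    · rw [h]; exact PC.zero.mono (by positivity)
    · refine (hA _ h).mono ?_
      gcongr
  haveI i₁ : ∀ p : J₁, NeZero (p.1 ^ e p.1) := fun p =>
    ⟨pow_ne_zero _ (hp p (mem_union_left _ p.2)).1.ne_zero⟩
  haveI i₂ : ∀ p : J₂, NeZero (p.1 ^ e p.1) := fun p =>
    ⟨pow_ne_zero _ (hp p (mem_union_right _ p.2)).1.ne_zero⟩
  have c₁ : Fintype.card (∀ p : J₁, ZMod (p.1 ^ e p.1)) = ∏ p ∈ J₁, p ^ e p := by
    simp only [Fintype.card_pi, ZMod.card]
    exact prod_coe_sort J₁ fun p => p ^ e p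
  have c₂ : Fintype.card (∀ p : J₂, ZMod (p.1 ^ e p.1)) = ∏ p ∈ J₂, p ^ e p := by
    simp only [Fintype.card_pi, ZMod.card]
    exact prod_coe_sort J₂ fun p => p ^ e p
  have m₁ := mc_half (B' := ∀ p : J₂, ZMod (p.1 ^ e p.1)) (fun p : J₁ => p.1 ^ e p.1) (D := 4 * u)
    (fun p => (hp p (mem_union_left _ p.2)).2.2) (by positivity) (hPC J₁ subset_union_left)
    (by rwa [c₂, Fintype.card_coe])
  have m₂ := mc_half (B' := ∀ p : J₁, ZMod (p.1 ^ e p.1)) (fun p : J₂ => p.1 ^ e p.1) (D := 4 * u)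
    (fun p => (hp p (mem_union_right _ p.2)).2.2) (by positivity) (hPC J₂ subset_union_right)
    (by rwa [c₁, Fintype.card_coe])
  have m := m₁.kron m₂
  have hFT := (IsFT.tp fun p : J₁ => isFT_F (p.1 ^ e p.1)).kron
    (IsFT.tp fun p : J₂ => isFT_F (p.1 ^ e p.1))
  obtain ⟨M, hM, hM'⟩ := hFT.inv
  let π' : ℤ →+ (∀ p : J₁, ZMod (p.1 ^ e p.1)) × (∀ p : J₂, ZMod (p.1 ^ e p.1)) :=
    (Int.castAddHom _).prod (Int.castAddHom _)
  have hπ : ∀ a : ℤ, π' a = 0 → |a| < 2 * n → a = 0 := by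
    intro a ha h2
    have hd : ∀ p ∈ J₁ ∪ J₂, ((p ^ e p : ℕ) : ℤ) ∣ a := by
      intro p hp'
      rw [← ZMod.intCast_zmod_eq_zero_iff_dvd]
      rcases mem_union.mp hp' with h | h
      · exact congrFun (congrArg Prod.fst ha) ⟨p, h⟩
      · exact congrFun (congrArg Prod.snd ha) ⟨p, h⟩
    have := Finset.prod_dvd_of_coprime (t := J₁ ∪ J₂) (s := fun p => ((p ^ e p : ℕ) : ℤ))
      (fun p hp' q hq' hpq => Nat.isCoprime_iff_coprime.mpr
        (Nat.coprime_pow_primes _ _ (hp p hp').1 (hp q hq').1 hpq)) hd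
    refine Int.eq_zero_of_abs_lt_dvd this (lt_of_lt_of_le h2 ?_)
    exact_mod_cast hN1
  obtain ⟨d, l, hl⟩ := bluestein hFT hM' π' hπ
  have hinj : Function.Injective fun j : Fin n => π' (j : ℕ) := by
    intro j k h
    have := hπ ((j : ℕ) - (k : ℕ)) (by rw [map_sub, sub_eq_zero]; exact h)
      (by rw [abs_lt]; constructor <;> omega)
    ext; omega
  have m' := (((hM.mc.mul m).mul (isMon_diagonal l).mc).mul m).submatrix
    (fun j : Fin n => π' (j : ℕ)) _ hinj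
  have m'' := ((isMon_diagonal fun j : Fin n => d j).mc.mul m').mul
    (isMon_diagonal fun j : Fin n => d j).mc
  refine (m''.of_eq id id Function.injective_id ?_).mono ?_
  · intro j k
    rw [id, id, mul_diagonal, diagonal_mul, submatrix_apply]
    exact hl j k j.2 k.2
  · rw [prod_union hdis] at hN2
    have hN : ((∏ p ∈ J₁, p ^ e p : ℕ) : ℝ) * (∏ p ∈ J₂, p ^ e p : ℕ) ≤ 4 * n := by
      have : (∏ p ∈ J₁, p ^ e p) * (∏ p ∈ J₂, p ^ e p) ≤ 4 * n := by omega
      exact_mod_cast this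
    rw [Fintype.card_prod, c₁, c₂, Fintype.card_fin, Nat.cast_mul, ← mul_assoc 4 4 u]
    norm_num only
    generalize ((∏ p ∈ J₁, p ^ e p : ℕ) : ℝ) = N₁ at hN ⊢
    generalize ((∏ p ∈ J₂, p ^ e p : ℕ) : ℝ) = N₂ at hN ⊢
    have hR : (0 : ℝ) ≤ (1 + 6 * Wb) * ((288 * Nat.log 2 (16 * u) + 72 : ℕ) *
      (3 * (A * ((2 * u + 1 : ℕ) : ℝ) ^ savingExponent) + 5) + 1) := by positivity
    nlinarith [mul_le_mul_of_nonneg_right hN hR]

end Crest.Agent.R324
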