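import Crest.Agent.R324.Cost

set_option autoImplicit false

namespace Crest.Agent.R324

open Finset Matrix

/-- tensor product of a finite family of matrices -/
def tp {J : Type*} [Fintype J] {ι κ : J → Type*} (M : ∀ j, Matrix (ι j) (κ j) ℂ) :
    Matrix (∀ j, ι j) (∀ j, κ j) ℂ := Matrix.of fun x y => ∏ j, M j (x j) (y j)

theorem tp_apply {J : Type*} [Fintype J] {ι κ : J → Type*} (M : ∀ j, Matrix (ι j) (κ j) ℂ)
    (x : ∀ j, ι j) (y : ∀ j, κ j) : tp M x y = ∏ j, M j (x j) (y j) := rfl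

theorem tp_mul {J : Type*} [Fintype J] [DecidableEq J] {ι κ μ : J → Type*} [∀ j, Fintype (κ j)]
    (M : ∀ j, Matrix (ι j) (κ j) ℂ) (N : ∀ j, Matrix (κ j) (μ j) ℂ) :
    tp (fun j => M j * N j) = tp M * tp N := by
  ext x y
  simp only [tp_apply, Matrix.mul_apply]
  rw [Finset.prod_univ_sum, Fintype.piFinset_univ]
  exact Finset.sum_congr rfl fun z _ => Finset.prod_mul_distrib

theorem tp_diagonal {J : Type*} [Fintype J] [DecidableEq J] {ι : J → Type*}
    [∀ j, DecidableEq (ι j)] (d : ∀ j, ι j → ℂ) :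
    tp (fun j => diagonal (d j)) = diagonal (fun x => ∏ j, d j (x j)) := by
  ext x y
  simp only [tp_apply, diagonal_apply]
  split_ifs with h
  · subst h; simp
  · obtain ⟨j, hj⟩ := Function.ne_iff.mp h
    exact Finset.prod_eq_zero (Finset.mem_univ j) (if_neg hj)

theorem tp_one {J : Type*} [Fintype J] [DecidableEq J] {ι : J → Type*}
    [∀ j, DecidableEq (ι j)] : tp (fun j => (1 : Matrix (ι j) (ι j) ℂ)) = 1 := by
  have := tp_diagonal (ι := ι) (fun _ _ => 1)
  simpa using this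

/-- at most one nonzero entry in each row -/
def IsMon {ι κ : Type*} (M : Matrix ι κ ℂ) : Prop := ∃ σ : ι → κ, ∀ i j, j ≠ σ i → M i j = 0

theorem IsMon.mc {ι κ : Type*} [Fintype ι] [Fintype κ] {M : Matrix ι κ ℂ} (h : IsMon M) :
    MC M (Fintype.card ι) := by
  obtain ⟨σ, hσ⟩ := h
  intro U _ _ x
  refine (Comp.range (c := 1) fun i => ?_).mono (Set.subset_insert _ _) (by simp) subset_rfl
  have : act M x i = M i (σ i) • x (σ i) := by
    unfold act
    rw [Finset.sum_eq_single (σ i)]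
    · intro j _ hj; rw [hσ i j hj, zero_smul]
    · simp
  rw [this]
  exact Comp.smul _ (Set.mem_insert_of_mem _ ⟨_, rfl⟩)

theorem IsMon.mul {ι κ μ : Type*} [Fintype κ] {M : Matrix ι κ ℂ} {N : Matrix κ μ ℂ}
    (hM : IsMon M) (hN : IsMon N) : IsMon (M * N) := by
  obtain ⟨σ, hσ⟩ := hM
  obtain ⟨τ, hτ⟩ := hN
  refine ⟨τ ∘ σ, fun i j hj => ?_⟩
  rw [Matrix.mul_apply]
  refine Finset.sum_eq_zero fun k _ => ?_
  by_cases hk : k = σ i
  · subst hk; rw [hτ _ _ hj, mul_zero]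
  · rw [hσ _ _ hk, zero_mul]

theorem isMon_diagonal {ι : Type*} [DecidableEq ι] (d : ι → ℂ) : IsMon (diagonal d) :=
  ⟨id, fun _ _ h => diagonal_apply_ne _ (Ne.symm h)⟩

theorem isMon_one {ι : Type*} [DecidableEq ι] : IsMon (1 : Matrix ι ι ℂ) := isMon_diagonal _

theorem IsMon.tp {J : Type*} [Fintype J] {ι κ : J → Type*} {M : ∀ j, Matrix (ι j) (κ j) ℂ}
    (h : ∀ j, IsMon (M j)) : IsMon (tp M) := by
  choose σ hσ using h
  refine ⟨fun x j => σ j (x j), fun x y hy => ?_⟩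
  obtain ⟨j, hj⟩ := Function.ne_iff.mp hy
  exact Finset.prod_eq_zero (Finset.mem_univ j) (hσ j _ _ hj)

theorem IsMon.bd {ι κ B : Type*} [DecidableEq B] {M : B → Matrix ι κ ℂ} (h : ∀ b, IsMon (M b)) :
    IsMon (blockDiagonal M) := by
  choose σ hσ using h
  refine ⟨fun x => (σ x.2 x.1, x.2), fun x y hy => ?_⟩
  rw [blockDiagonal_apply]
  split_ifs with h
  · refine hσ _ _ _ fun h2 => hy ?_
    ext
    · exact h2
    · exact h.symm
  · rfl

theorem IsMon.smul {ι κ : Type*} {M : Matrix ι κ ℂ} (h : IsMon M) (c : ℂ) : IsMon (c • M) := by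
  obtain ⟨σ, hσ⟩ := h
  exact ⟨σ, fun i j hj => by simp [hσ i j hj]⟩

theorem IsMon.submatrix_equiv {ι κ ι' κ' : Type*} {M : Matrix ι κ ℂ} (h : IsMon M) (f : ι' → ι)
    (e : κ' ≃ κ) : IsMon (M.submatrix f e) := by
  obtain ⟨σ, hσ⟩ := h
  exact ⟨fun i => e.symm (σ (f i)), fun i j hj => hσ _ _ fun h2 => hj (e.eq_symm_apply.mpr h2)⟩

/-- `A ⊗ 1` -/
abbrev bd1 {ι κ : Type*} (B : Type*) [DecidableEq B] (A : Matrix ι κ ℂ) :
    Matrix (ι × B) (κ × B) ℂ := blockDiagonal fun _ : B => A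

theorem bd1_apply {ι κ B : Type*} [DecidableEq B] (A : Matrix ι κ ℂ) (x : ι × B) (y : κ × B) :
    bd1 B A x y = if x.2 = y.2 then A x.1 y.1 else 0 := blockDiagonal_apply _ _ _

theorem bd1_mul {ι κ μ B : Type*} [DecidableEq B] [Fintype B] [Fintype κ] (A : Matrix ι κ ℂ)
    (A' : Matrix κ μ ℂ) : bd1 B (A * A') = bd1 B A * bd1 B A' := blockDiagonal_mul _ _

theorem MC.kron {ι κ : Type*} [Fintype ι] [Fintype κ] [DecidableEq ι] [DecidableEq κ]
    {A : Matrix ι ι ℂ} {B : Matrix κ κ ℂ} {s t : ℝ}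
    (hA : MC (bd1 κ A) s) (hB : MC (bd1 ι B) t) :
    MC (Matrix.of fun (x y : ι × κ) => A x.1 y.1 * B x.2 y.2) (s + t) := by
  have h := hA.mul (hB.submatrix Prod.swap Prod.swap Prod.swap_injective)
  convert h using 1
  ext x y
  simp [Matrix.mul_apply, Fintype.sum_prod_type, blockDiagonal_apply]

/-- the square root of the bit flip -/
noncomputable def Cm : Matrix (ZMod 2) (ZMod 2) ℂ :=
  Matrix.of fun x y => if x = y then (1 + Complex.I) / 2 else (1 - Complex.I) / 2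

/-- the batch size -/
def Wb : ℕ := 2 ^ 53

/-- batches of `k`-fold tensor powers of `Cm` cost `t` gates per entry -/
def PC (k : ℕ) (t : ℝ) : Prop :=
  ∀ (J B : Type) [Fintype J] [DecidableEq J] [Fintype B] [DecidableEq B],
    Fintype.card J = k → Wb ∣ Fintype.card B →
      MC (bd1 B (tp fun _ : J => Cm)) (Fintype.card B * 2 ^ k * t)

theorem PC.mono {k : ℕ} {t t' : ℝ} (h : PC k t) (ht : t ≤ t') : PC k t' :=
  fun J B _ _ _ _ hJ hB => (h J B hJ hB).mono (by gcongr)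

theorem PC.zero : PC 0 0 := by
  intro J B _ _ _ _ hJ _
  haveI : IsEmpty J := Fintype.card_eq_zero_iff.mp hJ
  refine (MC.one.of_eq (fun x : (J → ZMod 2) × B => x.2) (fun x => x.2) ?_ ?_).mono (by simp)
  · intro x y h
    exact Prod.ext (Subsingleton.elim _ _) h
  · intro x y
    simp [bd1_apply, tp_apply, Matrix.one_apply]

theorem PC.one : PC 1 4 := by
  intro J B _ _ _ _ hJ _
  refine (MC.bd fun _ => MC.dense _).mono (le_of_eq ?_)
  simp [hJ]
  ring

theorem PC.add {k k' : ℕ} {t t' : ℝ} (h : PC k t) (h' : PC k' t') : PC (k + k') (t + t') := by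
  intro J B _ _ _ _ hJ hB
  obtain ⟨e⟩ : Nonempty (Fin k ⊕ Fin k' ≃ J) := Fintype.card_eq.mp (by simp [hJ])
  have h1 := h (Fin k) ((Fin k' → ZMod 2) × B) (by simp)
    (by rw [Fintype.card_prod]; exact hB.mul_left _)
  have h2 := h' (Fin k') (B × (Fin k → ZMod 2)) (by simp)
    (by rw [Fintype.card_prod]; exact hB.mul_right _)
  have h3 : MC (bd1 (Fin k → ZMod 2) (bd1 B (tp fun _ : Fin k' => Cm))) _ :=
    h2.of_eq (Equiv.prodAssoc _ _ _) (Equiv.prodAssoc _ _ _) (Equiv.injective _) (by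
      rintro ⟨⟨x, b⟩, y⟩ ⟨⟨x', b'⟩, y'⟩
      simp only [bd1_apply, Equiv.prodAssoc_apply, Prod.mk.injEq]
      by_cases h1 : y = y' <;> by_cases h2 : b = b' <;> simp [h1, h2])
  refine ((h1.kron h3).of_eq
    (fun x => (fun i => x.1 (e (Sum.inl i)), (fun i => x.1 (e (Sum.inr i)), x.2)))
    (fun x => (fun i => x.1 (e (Sum.inl i)), (fun i => x.1 (e (Sum.inr i)), x.2))) ?_ ?_).mono
    (le_of_eq ?_)
  · intro x y hxy
    simp only [Prod.mk.injEq] at hxy
    refine Prod.ext (funext fun j => ?_) hxy.2.2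
    obtain ⟨j, rfl⟩ := e.surjective j
    cases j with
    | inl i => exact congrFun hxy.1 i
    | inr i => exact congrFun hxy.2.1 i
  · intro x y
    simp only [bd1_apply, Matrix.of_apply, tp_apply]
    rw [← e.prod_comp, Fintype.prod_sum_type]
    split_ifs <;> simp
  · simp [pow_add]
    ring

theorem PC.lin (k : ℕ) : PC k (4 * k) := by
  induction k with
  | zero => simpa using PC.zero
  | succ k ih => exact (ih.add PC.one).mono (by push_cast; linarith)

end Crest.Agent.R324
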